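import Vale.Agent.P061.H358.Main
import Mathlib.Data.ZMod.Basic

/-!
# Cycles with parallel edges: the constant `2` is best possible
-/

namespace Vale.Agent.P061.H358

open Finset

/-- The cycle on `n` vertices in which every edge is replaced by `h` parallel edges. -/
def cyc (n h : ℕ) (hn : 2 ≤ n) : MGraph (ZMod n) (ZMod n × Fin h) where
  fst e := e.1
  snd e := e.1 + 1
  loopless e := by
    intro heq
    have : Fact (1 < n) := ⟨by omega⟩
    have h1 : (1 : ZMod n) = 0 := by
      have h2 : e.1 + 1 = e.1 + 0 := by rw [add_zero]; exact heq.symm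
      exact add_left_cancel h2
    exact one_ne_zero h1

theorem closed_univ {n : ℕ} [NeZero n] {S : Finset (ZMod n)} (hS : S.Nonempty)
    (h : ∀ i ∈ S, i + 1 ∈ S) : S = univ := by
  obtain ⟨a, ha⟩ := hS
  have h1 : ∀ j : ℕ, a + (j : ZMod n) ∈ S := by
    intro j
    induction j with
    | zero => simpa using ha
    | succ j ih =>
      have := h _ ih
      rw [Nat.cast_succ, ← add_assoc]
      exact this
  ext v
  simp only [mem_univ, iff_true]
  have h2 := h1 (v - a).val
  rw [ZMod.natCast_zmod_val] at h2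
  simpa using h2

theorem exists_exit {n : ℕ} [NeZero n] {S : Finset (ZMod n)} (hS : S.Nonempty)
    (hS' : S ≠ univ) : ∃ i, i ∈ S ∧ i + 1 ∉ S := by
  by_contra hcon
  push Not at hcon
  exact hS' (closed_univ hS hcon)

theorem cyc_edgeConnected (n h : ℕ) [NeZero n] (hn : 2 ≤ n) :
    (cyc n h hn).EdgeConnected (2 * h) := by
  intro S hS hS'
  obtain ⟨i, hi, hi'⟩ := exists_exit hS hS'
  obtain ⟨j, hj, hj'⟩ := exists_exit (S := Sᶜ)
    (by
      rw [Finset.nonempty_iff_ne_empty]
      intro h0
      apply hS'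
      have := congrArg compl h0
      simpa using this)
    (by
      intro h0
      have := congrArg compl h0
      simp at this
      exact hS.ne_empty this)
  rw [mem_compl] at hj
  rw [mem_compl, not_not] at hj'
  have hij : i ≠ j := fun h => hj (h ▸ hi)
  have hsub : ({i, j} : Finset (ZMod n)) ×ˢ (univ : Finset (Fin h)) ⊆ (cyc n h hn).cut S := by
    intro e he
    rw [mem_product, mem_insert, mem_singleton] at he
    unfold MGraph.cut
    rw [mem_filter]
    refine ⟨mem_univ _, ?_⟩
    change (e.1 ∈ S ∧ e.1 + 1 ∉ S) ∨ (e.1 ∉ S ∧ e.1 + 1 ∈ S)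
    rcases he.1 with h1 | h1
    · left
      rw [h1]
      exact ⟨hi, hi'⟩
    · right
      rw [h1]
      exact ⟨hj, hj'⟩
  refine le_trans ?_ (card_le_card hsub)
  rw [card_product, card_pair hij, card_univ, Fintype.card_fin]

/-- The constant `2` of the sharp form for `k`-edge-connected multigraphs is optimal. -/
theorem optimal (n h m : ℕ) (hn : 2 ≤ n) (hh : 1 ≤ h) :
    ∃ (V E : Type) (_ : Fintype V) (_ : DecidableEq V) (_ : Fintype E) (_ : DecidableEq E)
      (G : MGraph V E), Fintype.card V = n ∧ G.EdgeConnected (2 * h) ∧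
      ∀ T : Fin m → Finset E, IsPacking G T → ∀ α : ℝ, G.IsThin (univ.biUnion T) α →
        2 * (1 - 1 / (n : ℝ)) * (m / ((2 * h : ℕ) : ℝ)) ≤ α := by
  have : NeZero n := ⟨by omega⟩
  refine ⟨ZMod n, ZMod n × Fin h, inferInstance, inferInstance, inferInstance, inferInstance,
    cyc n h hn, ZMod.card n, cyc_edgeConnected n h hn, fun T hT α hα => ?_⟩
  have h1 := lower hT (by rw [ZMod.card]; exact hn) hα
  rw [Fintype.card_prod, Fintype.card_fin, ZMod.card] at h1
  push_cast at h1 ⊢
  have hnR : (0 : ℝ) < n := by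
    have : 0 < n := by omega
    exact_mod_cast this
  have hhR : (0 : ℝ) < h := by
    have : 0 < h := by omega
    exact_mod_cast this
  have h2 : 2 * (1 - 1 / (n : ℝ)) * (m / (2 * h)) = (m * (n - 1)) / (n * h) := by
    field_simp
  rw [h2, div_le_iff₀ (by positivity)]
  exact h1

end Vale.Agent.P061.H358
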