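import Vale.Agent.P061.Defs

namespace Vale.Agent.P061.H358

/-- `T 0, …, T (m - 1)` are pairwise edge-disjoint spanning trees of `G`. -/
def IsPacking {V E : Type} [Fintype V] (G : MGraph V E) {m : ℕ} (T : Fin m → Finset E) : Prop :=
  (∀ i, G.IsSpanningTree (T i)) ∧ ∀ i j, i ≠ j → Disjoint (T i) (T j)

end Vale.Agent.P061.H358
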