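import Vale.Agent.P061.H358.Sel

/-!
# Reducing the number of trees by powers of two with summable errors
-/

namespace Vale.Agent.P061.H358

open Finset ST.Br

/-- Halving in ratio form with control of the number of trees. -/
def Ratio4 (c C₂ : ℝ) (t₀ : ℕ) : Prop :=
  ∀ (V E : Type) [Fintype V] [DecidableEq V] [Fintype E] [DecidableEq E] (G : MGraph V E)
    (A : Finset E) (t : ℕ), t₀ ≤ t → HasTrees G A t →
    ∃ (A' : Finset E) (t' : ℕ), A' ⊆ A ∧ HasTrees G A' t' ∧ (t : ℝ) / 4 ≤ t' ∧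
      (t' : ℝ) ≤ t / 2 ∧
      ∀ S : Finset V, ((A' ∩ G.cut S).card : ℝ) ≤
        (1 + C₂ * (t : ℝ) ^ (-c)) * (t' / t) * (A ∩ G.cut S).card

theorem one_le_mul_rpow {c : ℝ} (hc1 : c ≤ 1) {t : ℝ} (ht : 1 ≤ t) : 1 ≤ t * t ^ (-c) := by
  have ht0 : 0 < t := by linarith
  have h1 : t * t ^ (-c) = t ^ (1 - c) := by
    rw [Real.rpow_sub ht0, Real.rpow_one, Real.rpow_neg ht0.le]
    rfl
  rw [h1]
  exact Real.one_le_rpow ht (by linarith)

theorem half_of_halving {c C₁ : ℝ} (hc : 0 < c) (hc1 : c ≤ 1) (hC : 0 ≤ C₁)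
    (hH : Halving c C₁ 1) {t₁ : ℕ} (ht₁ : 1 ≤ t₁) {θ : ℝ}
    (hθ : (C₁ + 2) * (t₁ : ℝ) ^ (-c) ≤ θ) : Half θ t₁ ∧ 2 ≤ θ * t₁ := by
  have ht₁R : (1 : ℝ) ≤ t₁ := by exact_mod_cast ht₁
  constructor
  · intro V E _ _ _ _ G A t ht hA
    have htR : (t₁ : ℝ) ≤ t := by exact_mod_cast ht
    have ht1 : (1 : ℝ) ≤ t := by linarith
    obtain ⟨A', t', h1, h2, h3, h4, h5⟩ := hH V E G A t (by omega) hA
    have hle : (t : ℝ) ^ (-c) ≤ (t₁ : ℝ) ^ (-c) :=
      Real.rpow_le_rpow_of_nonpos (by linarith) htR (by linarith)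
    have h6 := one_le_mul_rpow hc1 ht1
    have h7 : (C₁ + 2) * (t : ℝ) ^ (-c) ≤ θ :=
      (mul_le_mul_of_nonneg_left hle (by linarith)).trans hθ
    have h8 : 0 < (t : ℝ) ^ (-c) := by positivity
    refine ⟨A', t', h1, h2, ?_, fun S => (h5 S).trans ?_⟩
    · have h9 : (C₁ + 2) * (t : ℝ) ^ (-c) * (t / 2) ≤ θ * (t / 2) :=
        mul_le_mul_of_nonneg_right h7 (by linarith)
      nlinarith only [h4, h6, h9]
    · refine mul_le_mul_of_nonneg_right ?_ (Nat.cast_nonneg _)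
      nlinarith only [h7, h8]
  · have h6 := one_le_mul_rpow hc1 ht₁R
    have h9 : (C₁ + 2) * (t₁ : ℝ) ^ (-c) * t₁ ≤ θ * t₁ :=
      mul_le_mul_of_nonneg_right hθ (by linarith)
    nlinarith only [h6, h9, hC]

theorem ratio4_of_halving {c C₁ : ℝ} (hc : 0 < c) (hc1 : c ≤ 1) (hC : 0 ≤ C₁)
    (hH : Halving c C₁ 1) : ∃ t₁ : ℕ, 8 ≤ t₁ ∧ Ratio4 c (8 * C₁ + 8) t₁ := by
  obtain ⟨m, hm⟩ := exists_nat_ge ((4 * C₁ + 8) ^ (1 / c))
  refine ⟨max m 8, le_max_right _ _, fun V E _ _ _ _ G A t ht hA => ?_⟩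
  have h8 : 8 ≤ t := le_trans (le_max_right _ _) ht
  have hmt : m ≤ t := le_trans (le_max_left _ _) ht
  have htR : (8 : ℝ) ≤ t := by exact_mod_cast h8
  have ht0 : (0 : ℝ) < t := by linarith only [htR]
  obtain ⟨A', t', hsub, hA', ht2, ht3, hcut⟩ := hH V E G A t (by omega) hA
  set x : ℝ := (t : ℝ) ^ (-c) with hx
  have hx0 : 0 < x := by positivity
  have hx1 : x * (4 * C₁ + 8) ≤ 1 := by
    have h1 : (4 * C₁ + 8) ^ (1 / c) ≤ (t : ℝ) := hm.trans (by exact_mod_cast hmt)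
    have h2 : ((4 * C₁ + 8) ^ (1 / c)) ^ c ≤ (t : ℝ) ^ c :=
      Real.rpow_le_rpow (by positivity) h1 hc.le
    rw [← Real.rpow_mul (by (clear * - hC; positivity)), one_div_mul_cancel hc.ne',
      Real.rpow_one] at h2
    rw [hx, Real.rpow_neg ht0.le]
    have h3 : (0 : ℝ) < (t : ℝ) ^ c := by positivity
    rw [inv_mul_le_iff₀ h3]
    linarith only [h2]
  have hxt : 1 ≤ t * x := one_le_mul_rpow hc1 (by linarith only [htR])
  have ht'pos : (t : ℝ) / 4 ≤ t' := by nlinarith only [ht3, hxt, hx1]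
  refine ⟨A', t', hsub, hA', ht'pos, ht2, fun S => (hcut S).trans ?_⟩
  refine mul_le_mul_of_nonneg_right ?_ (Nat.cast_nonneg _)
  have h5 : 1 / 2 * (1 - C₁ * x) - x ≤ t' / t := by
    rw [le_div_iff₀ ht0]
    nlinarith only [ht3, hxt]
  have h6 : (0 : ℝ) ≤ 1 + (8 * C₁ + 8) * x := by (clear * - hC h8; positivity)
  calc 1 / 2 * (1 + C₁ * x) ≤ (1 + (8 * C₁ + 8) * x) * (1 / 2 * (1 - C₁ * x) - x) := by
        nlinarith only [hx1, hxt, hC, hx0, ht2, ht3]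
    _ ≤ (1 + (8 * C₁ + 8) * x) * (t' / t) := by (clear * - h5 hC h8; gcongr)

/-- Iterated halving down to between `m` and `4 m` trees. -/
theorem down {c C₂ : ℝ} {t₀ : ℕ} (hc : 0 < c) (hC : 0 ≤ C₂) (hR : Ratio4 c C₂ t₀) :
    ∃ B : ℝ, 0 ≤ B ∧ ∀ m : ℕ, 1 ≤ m → t₀ ≤ m → ∀ t : ℕ, m ≤ t →
      ∀ (V E : Type) [Fintype V] [DecidableEq V] [Fintype E] [DecidableEq E]
      (G : MGraph V E) (A : Finset E), HasTrees G A t →
      ∃ (A' : Finset E) (t' : ℕ), A' ⊆ A ∧ HasTrees G A' t' ∧ m ≤ t' ∧ t' ≤ 4 * m ∧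
        ∀ S : Finset V, ((A' ∩ G.cut S).card : ℝ) ≤
          Real.exp (B * (m : ℝ) ^ (-c)) * (t' / t) * (A ∩ G.cut S).card := by
  have h2c : (1 : ℝ) < 2 ^ c := Real.one_lt_rpow (by norm_num) hc
  set B : ℝ := C₂ / (2 ^ c - 1) with hB
  have hB0 : 0 ≤ B := div_nonneg hC (by linarith only [h2c])
  have hBe : C₂ - B * 2 ^ c = - B := by
    rw [hB]
    have : (2 : ℝ) ^ c - 1 ≠ 0 := by linarith only [h2c]
    field_simp
    ring
  refine ⟨B, hB0, fun m hm1 hm0 => ?_⟩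
  have main : ∀ t : ℕ, m ≤ t → ∀ (V E : Type) [Fintype V] [DecidableEq V] [Fintype E]
      [DecidableEq E] (G : MGraph V E) (A : Finset E), HasTrees G A t →
      ∃ (A' : Finset E) (t' : ℕ), A' ⊆ A ∧ HasTrees G A' t' ∧ m ≤ t' ∧ t' ≤ 4 * m ∧
        ∀ S : Finset V, ((A' ∩ G.cut S).card : ℝ) ≤
          Real.exp (B * (t' : ℝ) ^ (-c) - B * (t : ℝ) ^ (-c)) * (t' / t) *
            (A ∩ G.cut S).card := by
    intro t
    induction t using Nat.strong_induction_on with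
    | _ t ih =>
    intro ht V E _ _ _ _ G A hA
    have hmR : (1 : ℝ) ≤ m := by exact_mod_cast hm1
    have htR : (m : ℝ) ≤ t := by exact_mod_cast ht
    have ht0 : (0 : ℝ) < t := by linarith only [htR, hmR]
    by_cases hlt : t ≤ 4 * m
    · refine ⟨A, t, Subset.refl _, hA, ht, hlt, fun S => ?_⟩
      rw [sub_self, Real.exp_zero, div_self ht0.ne', one_mul, one_mul]
    · push Not at hlt
      obtain ⟨A₁, u, hsub, hA₁, hu4, hu2, hcut⟩ := hR V E G A t (by omega) hA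
      have hltR : 4 * (m : ℝ) < t := by exact_mod_cast hlt
      have hmu : m ≤ u := by
        have : (m : ℝ) ≤ u := by linarith
        exact_mod_cast this
      have hu0 : (0 : ℝ) < u := by linarith
      have hut : u < t := by
        have : (u : ℝ) < t := by linarith
        exact_mod_cast this
      obtain ⟨A', t', h1, h2, h3, h4, h5⟩ := ih u hut hmu V E G A₁ hA₁
      refine ⟨A', t', h1.trans hsub, h2, h3, h4, fun S => ?_⟩
      have hp : (2 : ℝ) ^ c * (t : ℝ) ^ (-c) ≤ (u : ℝ) ^ (-c) := by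
        have h1 : (t / 2 : ℝ) ^ (-c) ≤ (u : ℝ) ^ (-c) :=
          Real.rpow_le_rpow_of_nonpos hu0 hu2 (by linarith only [hc])
        rw [Real.div_rpow ht0.le (by norm_num), Real.rpow_neg (by norm_num : (0 : ℝ) ≤ 2),
          div_inv_eq_mul, mul_comm] at h1
        exact h1
      have hexp : Real.exp (B * (t' : ℝ) ^ (-c) - B * (u : ℝ) ^ (-c)) *
          (1 + C₂ * (t : ℝ) ^ (-c)) ≤
          Real.exp (B * (t' : ℝ) ^ (-c) - B * (t : ℝ) ^ (-c)) := by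
        have h1 : 1 + C₂ * (t : ℝ) ^ (-c) ≤ Real.exp (C₂ * (t : ℝ) ^ (-c)) := by
          rw [add_comm]
          exact Real.add_one_le_exp _
        calc Real.exp (B * (t' : ℝ) ^ (-c) - B * (u : ℝ) ^ (-c)) * (1 + C₂ * (t : ℝ) ^ (-c))
            ≤ Real.exp (B * (t' : ℝ) ^ (-c) - B * (u : ℝ) ^ (-c)) *
              Real.exp (C₂ * (t : ℝ) ^ (-c)) := by (clear * - h1; gcongr)
          _ = Real.exp (B * (t' : ℝ) ^ (-c) - B * (u : ℝ) ^ (-c) + C₂ * (t : ℝ) ^ (-c)) := by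
              rw [← Real.exp_add]
          _ ≤ Real.exp (B * (t' : ℝ) ^ (-c) - B * (t : ℝ) ^ (-c)) := by
              apply Real.exp_le_exp.2
              have h3 : B * ((2 : ℝ) ^ c * (t : ℝ) ^ (-c)) ≤ B * (u : ℝ) ^ (-c) :=
                mul_le_mul_of_nonneg_left hp hB0
              have h4 : (C₂ - B * 2 ^ c) * (t : ℝ) ^ (-c) = - B * (t : ℝ) ^ (-c) := by rw [hBe]
              nlinarith only [h3, h4]
      have ht'0 : (0 : ℝ) ≤ t' := Nat.cast_nonneg _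
      calc ((A' ∩ G.cut S).card : ℝ)
          ≤ Real.exp (B * (t' : ℝ) ^ (-c) - B * (u : ℝ) ^ (-c)) * (t' / u) *
            (A₁ ∩ G.cut S).card := h5 S
        _ ≤ Real.exp (B * (t' : ℝ) ^ (-c) - B * (u : ℝ) ^ (-c)) * (t' / u) *
            ((1 + C₂ * (t : ℝ) ^ (-c)) * (u / t) * (A ∩ G.cut S).card) := by
            gcongr
            exact hcut S
        _ = (Real.exp (B * (t' : ℝ) ^ (-c) - B * (u : ℝ) ^ (-c)) *
            (1 + C₂ * (t : ℝ) ^ (-c))) * (t' / t) * (A ∩ G.cut S).card := by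
            field_simp
        _ ≤ Real.exp (B * (t' : ℝ) ^ (-c) - B * (t : ℝ) ^ (-c)) * (t' / t) *
            (A ∩ G.cut S).card := by
            (clear * - hexp; gcongr)
  intro t ht V E _ _ _ _ G A hA
  obtain ⟨A', t', h1, h2, h3, h4, h5⟩ := main t ht V E G A hA
  refine ⟨A', t', h1, h2, h3, h4, fun S => (h5 S).trans ?_⟩
  have hmR : (1 : ℝ) ≤ m := by exact_mod_cast hm1
  have h3R : (m : ℝ) ≤ t' := by exact_mod_cast h3
  have h6 : (t' : ℝ) ^ (-c) ≤ (m : ℝ) ^ (-c) :=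
    Real.rpow_le_rpow_of_nonpos (by linarith) h3R (by linarith)
  have h7 : (0 : ℝ) ≤ (t : ℝ) ^ (-c) := by positivity
  have h8 : B * (t' : ℝ) ^ (-c) - B * (t : ℝ) ^ (-c) ≤ B * (m : ℝ) ^ (-c) := by
    have := mul_le_mul_of_nonneg_left h6 hB0
    have := mul_nonneg hB0 h7
    linarith
  have h9 := Real.exp_le_exp.2 h8
  gcongr

end Vale.Agent.P061.H358
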