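import Vale.Agent.P061.H358.Peel
import Vale.Agent.P061.H358.Defs

/-!
# Thin packings of spanning trees: final forms
-/

namespace Vale.Agent.P061.H358

open Finset ST.Br

set_option linter.unusedSectionVars false

theorem halvingStatement : ST.HalvingStatement :=
  ST.halving_of (ST.stage_of ST.gameStatement (BB.nuclear_of_count CM.countStatement))
    KS.ksStatement

section

variable {V E : Type} [Fintype V] [DecidableEq V] [Fintype E] [DecidableEq E]

theorem hasTrees_of_packing {G : MGraph V E} {t : ℕ} {F : Fin t → Finset E}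
    (h : IsPacking G F) : HasTrees G univ t :=
  ⟨F, fun _ => subset_univ _, h.2, h.1⟩

theorem hasTrees_of_edgeConnected {G : MGraph V E} {k : ℕ} (hV : 2 ≤ Fintype.card V)
    (h : G.EdgeConnected k) : HasTrees G univ (k / 2) := by
  have hne : Nonempty V := by
    rw [← Fintype.card_pos_iff]
    omega
  obtain ⟨T, h1, h2⟩ := NW.trees_of_edgeConnected G (k / 2) (fun S h1 h2 =>
    le_trans (by omega) (h S h1 h2))
  exact ⟨T, fun _ => subset_univ _, h1, h2⟩

/-- Lower bound for the thinness of a packing: averaging over the stars. -/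
theorem lower {G : MGraph V E} {m : ℕ} {T : Fin m → Finset E} (hT : IsPacking G T)
    (hV : 2 ≤ Fintype.card V) {α : ℝ} (hα : G.IsThin (univ.biUnion T) α) :
    (m : ℝ) * ((Fintype.card V : ℝ) - 1) ≤ α * Fintype.card E := by
  classical
  have hcount : ∀ A : Finset E, ∑ r : V, (A ∩ G.cut (univ.filter (fun v => id v = r))).card =
      2 * A.card := by
    intro A
    have h := sum_cut_image G A id
    rw [image_id] at h
    rw [h]
    congr 1
    rw [filter_true_of_mem]
    intro e _
    exact G.loopless e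
  have hcard : (univ.biUnion T).card = m * (Fintype.card V - 1) := by
    rw [card_biUnion (fun i _ j _ hij => hT.2 i j hij)]
    have : ∀ i, (T i).card = Fintype.card V - 1 := fun i => by
      have := (hT.1 i).1
      omega
    simp only [this, sum_const, card_univ, Fintype.card_fin, smul_eq_mul]
  have h1 := hcount (univ.biUnion T)
  have h2 := hcount univ
  have h3 : ∀ r : V, (((univ.biUnion T) ∩ G.cut (univ.filter (fun v => id v = r))).card : ℝ) ≤
      α * ((univ ∩ G.cut (univ.filter (fun v => id v = r))).card : ℝ) := by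
    intro r
    rw [univ_inter]
    refine hα _ ⟨r, by simp⟩ ?_
    intro hun
    have h4 : (univ.filter (fun v : V => id v = r)).card = Fintype.card V := by
      rw [hun, card_univ]
    have h5 : univ.filter (fun v : V => id v = r) = {r} := by
      ext v
      simp
    rw [h5, card_singleton] at h4
    omega
  have h4 := sum_le_sum fun r (_ : r ∈ (univ : Finset V)) => h3 r
  rw [← mul_sum] at h4
  have h5 : ∑ r : V, (((univ.biUnion T) ∩ G.cut (univ.filter (fun v => id v = r))).card : ℝ) =
      2 * ((m * (Fintype.card V - 1) : ℕ) : ℝ) := by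
    rw [← hcard]
    exact_mod_cast h1
  have h6 : ∑ r : V, ((univ ∩ G.cut (univ.filter (fun v => id v = r))).card : ℝ) =
      2 * (Fintype.card E : ℝ) := by
    rw [← card_univ]
    exact_mod_cast h2
  rw [h5, h6] at h4
  have h7 : ((Fintype.card V - 1 : ℕ) : ℝ) = (Fintype.card V : ℝ) - 1 := by
    rw [Nat.cast_sub (by omega)]
    simp
  push_cast at h4
  rw [h7] at h4
  linarith

end

/-- Sharp sub-packings, both forms. -/
theorem sharp_forms : ∃ C c : ℝ, 0 < C ∧ 0 < c ∧
    (∀ (V E : Type) [Fintype V] [DecidableEq V] [Fintype E] [DecidableEq E] (G : MGraph V E)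
      (t m : ℕ), 1 ≤ m → m ≤ t → (∃ F : Fin t → Finset E, IsPacking G F) →
      ∃ T : Fin m → Finset E, IsPacking G T ∧
        G.IsThin (univ.biUnion T) ((1 + C * (m : ℝ) ^ (-c)) * (m / t))) ∧
    (∀ (V E : Type) [Fintype V] [DecidableEq V] [Fintype E] [DecidableEq E] (G : MGraph V E)
      (k m : ℕ), 1 ≤ m → 2 * m ≤ k → 2 ≤ Fintype.card V → G.EdgeConnected k →
      ∃ T : Fin m → Finset E, IsPacking G T ∧
        G.IsThin (univ.biUnion T) ((2 + C * (m : ℝ) ^ (-c)) * (m / k))) := by
  obtain ⟨c, C₁, hc, hc1, hC, hH⟩ := halving_of_statement halvingStatement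
  obtain ⟨C, c', hC0, hc', hc'1, hS⟩ := sharp hc hc1 hC hH
  have base : ∀ (V E : Type) [Fintype V] [DecidableEq V] [Fintype E] [DecidableEq E]
      (G : MGraph V E) (t m : ℕ), 1 ≤ m → m ≤ t → HasTrees G univ t →
      ∃ T : Fin m → Finset E, IsPacking G T ∧
        G.IsThin (univ.biUnion T) ((1 + C * (m : ℝ) ^ (-c')) * (m / t)) := by
    intro V E _ _ _ _ G t m hm hmt hF
    obtain ⟨A', -, ⟨T, h1, h2, h3⟩, h4⟩ := hS V E G univ t m hm hmt hF
    refine ⟨T, ⟨h3, h2⟩, fun S _ _ => ?_⟩
    have h5 := h4 S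
    rw [univ_inter] at h5
    refine le_trans ?_ h5
    exact_mod_cast card_le_card (inter_subset_inter_right (biUnion_subset.2 fun i _ => h1 i))
  refine ⟨1 + 3 * C, c', by linarith, hc', ?_, ?_⟩
  · intro V E _ _ _ _ G t m hm hmt ⟨F, hF⟩
    obtain ⟨T, h1, h2⟩ := base V E G t m hm hmt (hasTrees_of_packing hF)
    refine ⟨T, h1, fun S h3 h4 => (h2 S h3 h4).trans ?_⟩
    have hx : (0 : ℝ) < (m : ℝ) ^ (-c') := by
      have : (0 : ℝ) < m := by exact_mod_cast hm
      positivity
    refine mul_le_mul_of_nonneg_right ?_ (Nat.cast_nonneg _)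
    refine mul_le_mul_of_nonneg_right ?_ (by positivity)
    nlinarith
  · intro V E _ _ _ _ G k m hm hmk hV hk
    have hmt : m ≤ k / 2 := by omega
    obtain ⟨T, h1, h2⟩ := base V E G (k / 2) m hm hmt (hasTrees_of_edgeConnected hV hk)
    refine ⟨T, h1, fun S h3 h4 => (h2 S h3 h4).trans ?_⟩
    have hmR : (1 : ℝ) ≤ m := by exact_mod_cast hm
    have hmp : (0 : ℝ) < m := by linarith
    set x : ℝ := (m : ℝ) ^ (-c') with hx
    have hx0 : 0 < x := by positivity
    have hx1 : x ≤ 1 := Real.rpow_le_one_of_one_le_of_nonpos hmR (by linarith)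
    have hxm : 1 ≤ m * x := one_le_mul_rpow hc'1 hmR
    refine mul_le_mul_of_nonneg_right ?_ (Nat.cast_nonneg _)
    set t : ℕ := k / 2 with ht
    have htm : (m : ℝ) ≤ t := by exact_mod_cast hmt
    have htp : (0 : ℝ) < t := by linarith
    have hkt : (k : ℝ) ≤ 2 * t + 1 := by
      have : k ≤ 2 * t + 1 := by omega
      exact_mod_cast this
    have hkp : (0 : ℝ) < k := by
      have : (2 * (m : ℝ)) ≤ k := by exact_mod_cast hmk
      linarith
    have h5 : (k : ℝ) ≤ (2 + x) * t := by nlinarith
    have h6 : (m : ℝ) / t ≤ (2 + x) * (m / k) := by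
      rw [mul_div_assoc', div_le_div_iff₀ htp hkp]
      nlinarith
    calc (1 + C * x) * (m / t) ≤ (1 + C * x) * ((2 + x) * (m / k)) := by gcongr
      _ = ((1 + C * x) * (2 + x)) * (m / k) := by ring
      _ ≤ (2 + (1 + 3 * C) * x) * (m / k) := by
          refine mul_le_mul_of_nonneg_right ?_ (by positivity)
          nlinarith [mul_pos hC0 hx0]

/-- Almost all trees of a packing can be made thin, both forms. -/
theorem almost_forms (ε : ℝ) (hε : 0 < ε) : ∃ C : ℝ, 0 < C ∧
    (∀ (V E : Type) [Fintype V] [DecidableEq V] [Fintype E] [DecidableEq E] (G : MGraph V E)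
      (t : ℕ), 1 ≤ t → (∃ F : Fin t → Finset E, IsPacking G F) →
      ∃ (s : ℕ) (T : Fin s → Finset E), (1 - ε) * t ≤ s ∧ IsPacking G T ∧
        ∀ i, G.IsThin (T i) (C / t)) ∧
    (∀ (V E : Type) [Fintype V] [DecidableEq V] [Fintype E] [DecidableEq E] (G : MGraph V E)
      (k : ℕ), 1 ≤ k → 2 ≤ Fintype.card V → G.EdgeConnected k →
      ∃ (s : ℕ) (T : Fin s → Finset E), (1 - ε) * ((k - 1) / 2) ≤ s ∧ 1 ≤ s ∧ IsPacking G T ∧
        ∀ i, G.IsThin (T i) (C / k)) := by
  obtain ⟨c, C₁, hc, hc1, hC, hH⟩ := halving_of_statement halvingStatement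
  set δ : ℝ := min ε (1 / 2) with hδ
  have hδ0 : 0 < δ := lt_min hε (by norm_num)
  have hδε : δ ≤ ε := min_le_left _ _
  have hδ2 : δ ≤ 1 / 2 := min_le_right _ _
  obtain ⟨C, hC0, hA⟩ := almostAll (sharp hc hc1 hC hH) hδ0 (by linarith)
  have base : ∀ (V E : Type) [Fintype V] [DecidableEq V] [Fintype E] [DecidableEq E]
      (G : MGraph V E) (t : ℕ), 1 ≤ t → HasTrees G univ t →
      ∃ (s : ℕ) (T : Fin s → Finset E), (1 - δ) * t ≤ s ∧ IsPacking G T ∧
        ∀ i, G.IsThin (T i) (C / t) := by
    intro V E _ _ _ _ G t ht hF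
    obtain ⟨s, hs, T, -, h2, h3, h4⟩ := hA V E G univ t ht hF
    refine ⟨s, T, hs, ⟨h3, h2⟩, fun i S _ _ => ?_⟩
    have h5 := h4 i S
    rwa [univ_inter] at h5
  refine ⟨3 * C + 1, by linarith, ?_, ?_⟩
  · intro V E _ _ _ _ G t ht ⟨F, hF⟩
    have htp : (0 : ℝ) < t := by exact_mod_cast ht
    obtain ⟨s, T, h1, h2, h3⟩ := base V E G t ht (hasTrees_of_packing hF)
    refine ⟨s, T, by nlinarith, h2, fun i S h4 h5 => (h3 i S h4 h5).trans ?_⟩
    refine mul_le_mul_of_nonneg_right ?_ (Nat.cast_nonneg _)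
    gcongr
    linarith
  · intro V E _ _ _ _ G k hk hV hG
    rcases Nat.lt_or_ge k 2 with hk2 | hk2
    · -- `k = 1`: any spanning tree
      have hk1 : k = 1 := by omega
      subst hk1
      have hne : Nonempty V := by
        rw [← Fintype.card_pos_iff]
        omega
      obtain ⟨T, -, hT⟩ := exists_spanning_tree G univ hne (by
        intro S hS
        by_contra hno
        push Not at hno
        have h1 := hG S hno.1 hno.2
        obtain ⟨e, he⟩ := card_pos.1 (lt_of_lt_of_le zero_lt_one h1)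
        have h2 := hS e (mem_univ e)
        simp only [MGraph.cut, mem_filter, mem_univ, true_and] at he
        (clear * - hno h2 he; tauto))
      refine ⟨1, fun _ => T, by simp, le_refl _,
        ⟨fun _ => hT, fun i j hij => absurd (Subsingleton.elim i j) hij⟩, fun _ S _ _ => ?_⟩
      have h1 : ((T ∩ G.cut S).card : ℝ) ≤ (G.cut S).card := by
        exact_mod_cast card_le_card inter_subset_right
      have h2 : (0 : ℝ) ≤ (G.cut S).card := Nat.cast_nonneg _
      rw [Nat.cast_one, div_one]
      nlinarith only [h1, h2, hC0]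
    · have ht1 : 1 ≤ k / 2 := by omega
      obtain ⟨s, T, h1, h2, h3⟩ := base V E G (k / 2) ht1 (hasTrees_of_edgeConnected hV hG)
      set t : ℕ := k / 2 with ht
      have htR : (1 : ℝ) ≤ t := by exact_mod_cast ht1
      have htp : (0 : ℝ) < t := by linarith
      have hkt : (k : ℝ) ≤ 2 * t + 1 := by
        have : k ≤ 2 * t + 1 := by omega
        exact_mod_cast this
      have hk2R : (2 : ℝ) ≤ k := by exact_mod_cast hk2
      have hkp : (0 : ℝ) < k := by linarith
      refine ⟨s, T, ?_, ?_, h2, fun i S h4 h5 => (h3 i S h4 h5).trans ?_⟩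
      · refine le_trans ?_ h1
        have h6 : ((k : ℝ) - 1) / 2 ≤ t := by linarith
        have h7 : (0 : ℝ) ≤ ((k : ℝ) - 1) / 2 := by linarith
        nlinarith
      · have : (0 : ℝ) < s := by
          refine lt_of_lt_of_le ?_ h1
          have : 0 < 1 - δ := by linarith
          positivity
        have : 0 < s := by exact_mod_cast this
        omega
      · refine mul_le_mul_of_nonneg_right ?_ (Nat.cast_nonneg _)
        rw [div_le_div_iff₀ htp hkp]
        nlinarith

end Vale.Agent.P061.H358
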