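import Vale.Agent.P061.Bdl.B1

/-!
# Sub-packings of spanning trees: complement and disjoint unions
-/

namespace Vale.Agent.P061.H358

open Finset ST.Br

set_option linter.unusedSectionVars false

variable {V E : Type} [Fintype V] [DecidableEq V] [Fintype E] [DecidableEq E]

/-- `HasTrees` only depends on the packing number from below. -/
theorem hasTrees_le {G : MGraph V E} {A : Finset E} {s t : ℕ}
    (hst : s ≤ t) (h : HasTrees G A t) : HasTrees G A s := by
  obtain ⟨T, h1, h2, h3⟩ := h
  refine ⟨fun i => T (Fin.castLE hst i), fun i => h1 _, fun i j hij => h2 _ _ ?_, fun i => h3 _⟩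
  intro h
  exact hij (Fin.castLE_injective hst h)

theorem hasTrees_zero (G : MGraph V E) (A : Finset E) : HasTrees G A 0 :=
  ⟨fun i => i.elim0, fun i => i.elim0, fun i => i.elim0, fun i => i.elim0⟩

theorem hasTrees_union {G : MGraph V E} {A B : Finset E} {s t : ℕ} (hAB : Disjoint A B)
    (hA : HasTrees G A s) (hB : HasTrees G B t) : HasTrees G (A ∪ B) (s + t) := by
  obtain ⟨T, h1, h2, h3⟩ := hA
  obtain ⟨U, g1, g2, g3⟩ := hB
  have hTU : ∀ i j, Disjoint (T i) (U j) := fun i j =>
    Finset.disjoint_of_subset_left (h1 i) (Finset.disjoint_of_subset_right (g1 j) hAB)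
  refine ⟨Fin.append T U, fun i => ?_, fun i j => ?_, fun i => ?_⟩
  · refine Fin.addCases (fun i => ?_) (fun i => ?_) i
    · rw [Fin.append_left]
      exact (h1 i).trans subset_union_left
    · rw [Fin.append_right]
      exact (g1 i).trans subset_union_right
  · refine Fin.addCases (fun i => ?_) (fun i => ?_) i <;>
      refine Fin.addCases (fun j => ?_) (fun j => ?_) j <;> intro hij
    · rw [Fin.append_left, Fin.append_left]
      exact h2 i j fun h => hij (by rw [h])
    · rw [Fin.append_left, Fin.append_right]
      exact hTU i j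
    · rw [Fin.append_left, Fin.append_right]
      exact (hTU j i).symm
    · rw [Fin.append_right, Fin.append_right]
      exact g2 i j fun h => hij (by rw [h])
  · refine Fin.addCases (fun i => ?_) (fun i => ?_) i
    · rw [Fin.append_left]
      exact h3 i
    · rw [Fin.append_right]
      exact g3 i

/-- Double counting of the crossing edges of a colouring. -/
theorem sum_cut_image (G : MGraph V E) (A : Finset E) (c : V → V) :
    ∑ r ∈ univ.image c, (A ∩ G.cut (univ.filter (fun v => c v = r))).card =
      2 * (A.filter (fun e => c (G.fst e) ≠ c (G.snd e))).card := by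
  classical
  have h3 : ∀ r, (A ∩ G.cut (univ.filter (fun v => c v = r))).card =
      ∑ e ∈ A, if e ∈ G.cut (univ.filter (fun v => c v = r)) then 1 else 0 := by
    intro r
    rw [Finset.sum_ite_mem, card_eq_sum_ones]
  simp_rw [h3]
  rw [sum_comm, card_filter, mul_sum]
  refine sum_congr rfl fun e _ => ?_
  by_cases he : c (G.fst e) = c (G.snd e)
  · simp only [MGraph.cut, mem_filter, mem_univ, true_and, he]
    simp
  · simp only [ne_eq, he, not_false_eq_true, if_true, mul_one]
    calc ∑ r ∈ univ.image c, (if e ∈ G.cut (univ.filter (fun v => c v = r)) then 1 else 0)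
        = ∑ r ∈ univ.image c, ((if r = c (G.fst e) then 1 else 0) +
          (if r = c (G.snd e) then 1 else 0)) := by
          refine sum_congr rfl fun r _ => ?_
          by_cases h1 : r = c (G.fst e)
          · have h2 : r ≠ c (G.snd e) := fun h => he (h1.symm.trans h)
            have h4 : e ∈ G.cut (univ.filter (fun v => c v = r)) := by
              simp only [MGraph.cut, mem_filter, mem_univ, true_and]
              exact Or.inl ⟨h1.symm, fun h => h2 h.symm⟩
            rw [if_pos h4, if_pos h1, if_neg h2]
          · by_cases h2 : r = c (G.snd e)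
            · have h4 : e ∈ G.cut (univ.filter (fun v => c v = r)) := by
                simp only [MGraph.cut, mem_filter, mem_univ, true_and]
                exact Or.inr ⟨fun h => h1 h.symm, h2.symm⟩
              rw [if_pos h4, if_neg h1, if_pos h2]
            · have h4 : e ∉ G.cut (univ.filter (fun v => c v = r)) := by
                simp only [MGraph.cut, mem_filter, mem_univ, true_and]
                rintro (⟨h, -⟩ | ⟨-, h⟩)
                · exact h1 h.symm
                · exact h2 h.symm
              rw [if_neg h4, if_neg h1, if_neg h2]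
      _ = 2 := by
          rw [sum_add_distrib]
          simp only [sum_ite_eq', mem_image, mem_univ, true_and, exists_apply_eq_apply, if_true]

/-- If `A₁ ⊆ A` takes at most a fraction `β` of every cut of `A` then the rest of `A` keeps a
fraction `1 - β` of the disjoint spanning trees of `A`. -/
theorem hasTrees_sdiff {G : MGraph V E} {A A₁ : Finset E} {t : ℕ} (hA : HasTrees G A t)
    (h1 : A₁ ⊆ A) {β : ℝ}
    (hβ : ∀ S : Finset V, ((A₁ ∩ G.cut S).card : ℝ) ≤ β * (A ∩ G.cut S).card)
    {r : ℕ} (hr : (r : ℝ) ≤ (1 - β) * t) : HasTrees G (A \ A₁) r := by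
  classical
  rcases Nat.eq_zero_or_pos r with h0 | h0
  · rw [h0]; exact hasTrees_zero G _
  have hr1 : (1 : ℝ) ≤ r := by exact_mod_cast h0
  have ht : 0 < t := by
    rcases Nat.eq_zero_or_pos t with h | h
    · rw [h] at hr
      simp at hr
      linarith
    · exact h
  have ht' : (0 : ℝ) < t := by exact_mod_cast ht
  have hβ1 : 0 < 1 - β := by
    by_contra hcon
    push Not at hcon
    nlinarith
  obtain ⟨T, hTA, hTd, hT⟩ := hA
  have hne : Nonempty V := by
    rw [← Fintype.card_pos_iff]
    have := (hT ⟨0, ht⟩).1
    omega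
  obtain ⟨F, g1, g2, g3⟩ := NW.tree_packing G (A \ A₁) r (by
    intro c
    have h2 := NW.crossE_ge_of_trees G T hT hTd c
    have h3 : NW.crossE G.fst G.snd (univ.biUnion T) c ⊆
        A.filter (fun e => c (G.fst e) ≠ c (G.snd e)) := by
      intro e he
      rw [NW.mem_crossE] at he
      obtain ⟨i, -, hi⟩ := mem_biUnion.1 he.1
      exact mem_filter.2 ⟨hTA i hi, he.2⟩
    have h4 := h2.trans (card_le_card h3)
    have h5 := sum_cut_image G A c
    have h6 := sum_cut_image G (A \ A₁) c
    have h7 : ∀ S : Finset V, (1 - β) * ((A ∩ G.cut S).card : ℝ) ≤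
        (((A \ A₁) ∩ G.cut S).card : ℝ) := by
      intro S
      have h8 : ((A \ A₁) ∩ G.cut S).card + (A₁ ∩ G.cut S).card = (A ∩ G.cut S).card := by
        rw [← card_union_of_disjoint]
        · congr 1
          ext e
          simp only [mem_union, mem_inter, mem_sdiff]
          constructor
          · rintro (⟨⟨h, -⟩, h'⟩ | ⟨h, h'⟩)
            · exact ⟨h, h'⟩
            · exact ⟨h1 h, h'⟩
          · rintro ⟨h, h'⟩
            by_cases h9 : e ∈ A₁
            · exact Or.inr ⟨h9, h'⟩
            · exact Or.inl ⟨⟨h, h9⟩, h'⟩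
        · rw [Finset.disjoint_left]
          intro e he he'
          simp only [mem_inter, mem_sdiff] at he he'
          exact he.1.2 he'.1
      have h9 : (((A \ A₁) ∩ G.cut S).card : ℝ) + ((A₁ ∩ G.cut S).card : ℝ) =
          ((A ∩ G.cut S).card : ℝ) := by exact_mod_cast h8
      have := hβ S
      linarith
    have h10 : (1 - β) * (2 * ((A.filter (fun e => c (G.fst e) ≠ c (G.snd e))).card : ℝ)) ≤
        2 * (((A \ A₁).filter (fun e => c (G.fst e) ≠ c (G.snd e))).card : ℝ) := by
      have h11 : (2 * ((A.filter (fun e => c (G.fst e) ≠ c (G.snd e))).card : ℝ)) =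
          ∑ r ∈ univ.image c, ((A ∩ G.cut (univ.filter (fun v => c v = r))).card : ℝ) := by
        exact_mod_cast h5.symm
      have h12 : (2 * (((A \ A₁).filter (fun e => c (G.fst e) ≠ c (G.snd e))).card : ℝ)) =
          ∑ r ∈ univ.image c, (((A \ A₁) ∩ G.cut (univ.filter (fun v => c v = r))).card : ℝ) := by
        exact_mod_cast h6.symm
      rw [h11, h12, mul_sum]
      exact sum_le_sum fun r _ => h7 _
    have h13 : ((t * ((univ.image c).card - 1) : ℕ) : ℝ) ≤
        ((A.filter (fun e => c (G.fst e) ≠ c (G.snd e))).card : ℝ) := by exact_mod_cast h4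
    have h14 : ((r * ((univ.image c).card - 1) : ℕ) : ℝ) ≤
        (((A \ A₁).filter (fun e => c (G.fst e) ≠ c (G.snd e))).card : ℝ) := by
      push_cast at h13 ⊢
      have h15 : (0 : ℝ) ≤ (((univ.image c).card - 1 : ℕ) : ℝ) := Nat.cast_nonneg _
      nlinarith
    exact_mod_cast h14)
  exact ⟨F, g1, g2, g3⟩

end Vale.Agent.P061.H358
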