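import Vale.Agent.P061.H358.Sharp

/-!
# Peeling off thin packings: almost all trees of a packing can be made thin
-/

namespace Vale.Agent.P061.H358

open Finset ST.Br

set_option linter.unusedSectionVars false

variable {V E : Type} [Fintype V] [DecidableEq V] [Fintype E] [DecidableEq E]

/-- `A` contains `s` disjoint spanning trees, each with at most a fraction `κ` of the edges of
`A` in every cut. -/
def ThinTrees (G : MGraph V E) (A : Finset E) (s : ℕ) (κ : ℝ) : Prop :=
  ∃ T : Fin s → Finset E, (∀ i, T i ⊆ A) ∧ (∀ i j, i ≠ j → Disjoint (T i) (T j)) ∧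
    (∀ i, G.IsSpanningTree (T i)) ∧
    ∀ i, ∀ S : Finset V, ((T i ∩ G.cut S).card : ℝ) ≤ κ * (A ∩ G.cut S).card

theorem thinTrees_of {G : MGraph V E} {A F : Finset E} {m : ℕ} {κ : ℝ} (hF : F ⊆ A)
    (h : HasTrees G F m)
    (hκ : ∀ S : Finset V, ((F ∩ G.cut S).card : ℝ) ≤ κ * (A ∩ G.cut S).card) :
    ∃ T : Fin m → Finset E, (∀ i, T i ⊆ F) ∧ (∀ i j, i ≠ j → Disjoint (T i) (T j)) ∧
    (∀ i, G.IsSpanningTree (T i)) ∧
    ∀ i, ∀ S : Finset V, ((T i ∩ G.cut S).card : ℝ) ≤ κ * (A ∩ G.cut S).card := by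
  obtain ⟨T, h1, h2, h3⟩ := h
  refine ⟨T, h1, h2, h3, fun i S => le_trans ?_ (hκ S)⟩
  exact_mod_cast card_le_card (inter_subset_inter_right (h1 i))

theorem thinTrees_union {G : MGraph V E} {A F : Finset E} {m s : ℕ} {κ : ℝ} (hκ0 : 0 ≤ κ)
    (hF : F ⊆ A) (h : HasTrees G F m)
    (hκ : ∀ S : Finset V, ((F ∩ G.cut S).card : ℝ) ≤ κ * (A ∩ G.cut S).card)
    (hR : ThinTrees G (A \ F) s κ) : ThinTrees G A (m + s) κ := by
  obtain ⟨T, h1, h2, h3, h4⟩ := thinTrees_of hF h hκ
  obtain ⟨U, g1, g2, g3, g4⟩ := hR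
  have hTU : ∀ i j, Disjoint (T i) (U j) := by
    intro i j
    rw [Finset.disjoint_left]
    intro e he he'
    exact (mem_sdiff.1 (g1 j he')).2 (h1 i he)
  refine ⟨Fin.append T U, fun i => ?_, fun i j => ?_, fun i => ?_, fun i => ?_⟩
  · refine Fin.addCases (fun i => ?_) (fun i => ?_) i
    · rw [Fin.append_left]
      exact (h1 i).trans hF
    · rw [Fin.append_right]
      exact (g1 i).trans sdiff_subset
  · refine Fin.addCases (fun i => ?_) (fun i => ?_) i <;>
      refine Fin.addCases (fun j => ?_) (fun j => ?_) j <;> intro hij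
    · rw [Fin.append_left, Fin.append_left]
      exact h2 i j fun h => hij (by rw [h])
    · rw [Fin.append_left, Fin.append_right]
      exact hTU i j
    · rw [Fin.append_left, Fin.append_right]
      exact (hTU j i).symm
    · rw [Fin.append_right, Fin.append_right]
      exact g2 i j fun h => hij (by rw [h])
  · refine Fin.addCases (fun i => ?_) (fun i => ?_) i
    · rw [Fin.append_left]
      exact h3 i
    · rw [Fin.append_right]
      exact g3 i
  · refine Fin.addCases (fun i => ?_) (fun i => ?_) i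
    · intro S
      rw [Fin.append_left]
      exact h4 i S
    · intro S
      rw [Fin.append_right]
      refine (g4 i S).trans (mul_le_mul_of_nonneg_left ?_ hκ0)
      exact_mod_cast card_le_card (inter_subset_inter_right sdiff_subset)

/-- Peeling off `r` packings of `m` trees. -/
theorem peel {m : ℕ} {a : ℝ} (ha : 0 ≤ a)
    (hS : ∀ (V E : Type) [Fintype V] [DecidableEq V] [Fintype E] [DecidableEq E]
      (G : MGraph V E) (A : Finset E) (t : ℕ), m ≤ t → HasTrees G A t →
      ∃ A' : Finset E, A' ⊆ A ∧ HasTrees G A' m ∧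
        ∀ S : Finset V, ((A' ∩ G.cut S).card : ℝ) ≤ a / t * (A ∩ G.cut S).card)
    {b : ℝ} (hb : 0 < b) (hbm : (m : ℝ) ≤ b) (hba : a ≤ b) (r : ℕ) :
    ∀ (V E : Type) [Fintype V] [DecidableEq V] [Fintype E] [DecidableEq E]
      (G : MGraph V E) (A : Finset E) (t : ℕ), HasTrees G A t → b + r * (a + 1) ≤ t →
      ThinTrees G A (r * m) (a / b) := by
  induction r with
  | zero =>
    intro V E _ _ _ _ G A t _ _
    rw [zero_mul]
    exact ⟨fun i => i.elim0, fun i => i.elim0, fun i => i.elim0, fun i => i.elim0,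
      fun i => i.elim0⟩
  | succ r ih =>
    intro V E _ _ _ _ G A t hA ht
    push_cast at ht
    have hr0 : (0 : ℝ) ≤ r * (a + 1) := by positivity
    have hbt : b ≤ t := by linarith
    have htp : (0 : ℝ) < t := by linarith
    have hmt : m ≤ t := by
      have : (m : ℝ) ≤ t := hbm.trans hbt
      exact_mod_cast this
    obtain ⟨F, h1, h2, h3⟩ := hS V E G A t hmt hA
    have h4 : ∀ S : Finset V, ((F ∩ G.cut S).card : ℝ) ≤ a / b * (A ∩ G.cut S).card := by
      intro S
      refine (h3 S).trans (mul_le_mul_of_nonneg_right ?_ (Nat.cast_nonneg _))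
      gcongr
    have hta : (0 : ℝ) ≤ t - a := by linarith
    have h5 : HasTrees G (A \ F) ⌊(t : ℝ) - a⌋₊ := by
      refine hasTrees_sdiff hA h1 h3 ?_
      refine (Nat.floor_le hta).trans (le_of_eq ?_)
      field_simp
    have h6 := ih V E G (A \ F) _ h5 (by
      have := Nat.lt_floor_add_one ((t : ℝ) - a)
      linarith)
    have h7 := thinTrees_union (by positivity) h1 h2 h4 h6
    have : m + r * m = (r + 1) * m := by ring
    rw [this] at h7
    exact h7

/-- Almost all trees of a packing can be made thin. -/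
theorem almostAll
    (hsharp : ∃ C c' : ℝ, 0 < C ∧ 0 < c' ∧ c' ≤ 1 ∧
      ∀ (V E : Type) [Fintype V] [DecidableEq V] [Fintype E] [DecidableEq E]
      (G : MGraph V E) (A : Finset E) (t m : ℕ), 1 ≤ m → m ≤ t → HasTrees G A t →
      ∃ A' : Finset E, A' ⊆ A ∧ HasTrees G A' m ∧
        ∀ S : Finset V, ((A' ∩ G.cut S).card : ℝ) ≤
          (1 + C * (m : ℝ) ^ (-c')) * (m / t) * (A ∩ G.cut S).card)
    {ε : ℝ} (hε : 0 < ε) (hε1 : ε ≤ 1) :
    ∃ C : ℝ, 0 < C ∧ ∀ (V E : Type) [Fintype V] [DecidableEq V] [Fintype E] [DecidableEq E]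
      (G : MGraph V E) (A : Finset E) (t : ℕ), 1 ≤ t → HasTrees G A t →
      ∃ s : ℕ, (1 - ε) * t ≤ s ∧ ThinTrees G A s (C / t) := by
  obtain ⟨C, c', hC, hc', -, hS⟩ := hsharp
  obtain ⟨m₁, hm₁⟩ := exists_nat_ge ((8 * C / ε) ^ (1 / c'))
  obtain ⟨m₂, hm₂⟩ := exists_nat_ge (16 / ε)
  set m := max (max m₁ m₂) 1 with hm
  have hm1 : 1 ≤ m := le_max_right _ _
  have hmR : (1 : ℝ) ≤ m := by exact_mod_cast hm1
  have hmp : (0 : ℝ) < m := by linarith
  have hmm₁ : (m₁ : ℝ) ≤ m := by exact_mod_cast (le_max_left m₁ m₂).trans (le_max_left _ _)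
  have hmm₂ : (m₂ : ℝ) ≤ m := by exact_mod_cast (le_max_right m₁ m₂).trans (le_max_left _ _)
  have hη : C * (m : ℝ) ^ (-c') ≤ ε / 8 := by
    have h1 : (8 * C / ε) ^ (1 / c') ≤ (m : ℝ) := hm₁.trans hmm₁
    have h2 : ((8 * C / ε) ^ (1 / c')) ^ c' ≤ (m : ℝ) ^ c' :=
      Real.rpow_le_rpow (by positivity) h1 hc'.le
    rw [← Real.rpow_mul (by positivity), one_div_mul_cancel hc'.ne', Real.rpow_one] at h2
    rw [Real.rpow_neg hmp.le]
    have h3 : (0 : ℝ) < (m : ℝ) ^ c' := by positivity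
    rw [mul_inv_le_iff₀ h3]
    rw [div_le_iff₀ hε] at h2
    linarith
  have hm16 : 16 ≤ ε * m := by
    have := hm₂.trans hmm₂
    rw [div_le_iff₀ hε] at this
    linarith
  set a : ℝ := (1 + ε / 8) * m with ha
  have ha0 : 0 < a := by positivity
  refine ⟨4 * m / ε, by positivity, fun V E _ _ _ _ G A t ht hA => ?_⟩
  have htR : (1 : ℝ) ≤ t := by exact_mod_cast ht
  have htp : (0 : ℝ) < t := by linarith
  by_cases hsmall : (t : ℝ) ≤ 4 * m / ε
  · refine ⟨t, by nlinarith, ?_⟩
    obtain ⟨T, h1, h2, h3⟩ := hA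
    refine ⟨T, h1, h2, h3, fun i S => ?_⟩
    have h4 : ((T i ∩ G.cut S).card : ℝ) ≤ ((A ∩ G.cut S).card : ℝ) := by
      exact_mod_cast card_le_card (inter_subset_inter_right (h1 i))
    have h5 : 1 ≤ 4 * m / ε / t := by
      rw [le_div_iff₀ htp]
      linarith
    have h6 : (0 : ℝ) ≤ ((A ∩ G.cut S).card : ℝ) := Nat.cast_nonneg _
    nlinarith
  · push Not at hsmall
    rw [div_lt_iff₀ hε] at hsmall
    set b : ℝ := ε * t / 2 with hb
    have hb0 : 0 < b := by positivity
    have hbm : (m : ℝ) ≤ b := by rw [hb]; linarith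
    have hba : a ≤ b := by
      rw [hb, ha]
      nlinarith
    have hq0 : 0 < a + 1 := by linarith
    set r : ℕ := ⌊(t - b) / (a + 1)⌋₊ with hr
    have htb : 0 ≤ (t : ℝ) - b := by rw [hb]; nlinarith
    have hrle : (r : ℝ) ≤ (t - b) / (a + 1) := Nat.floor_le (by positivity)
    have hrgt : (t - b) / (a + 1) < r + 1 := Nat.lt_floor_add_one _
    rw [le_div_iff₀ hq0] at hrle
    rw [div_lt_iff₀ hq0] at hrgt
    have h1 := peel (m := m) (a := a) ha0.le (fun V E _ _ _ _ G A t hmt hA => by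
      obtain ⟨A', g1, g2, g3⟩ := hS V E G A t m hm1 hmt hA
      refine ⟨A', g1, g2, fun S => (g3 S).trans ?_⟩
      refine mul_le_mul_of_nonneg_right ?_ (Nat.cast_nonneg _)
      rw [ha, mul_div_assoc]
      refine mul_le_mul_of_nonneg_right ?_ (by positivity)
      linarith) hb0 hbm hba r V E G A t hA (by linarith)
    refine ⟨r * m, ?_, ?_⟩
    · push_cast
      -- `a + 1 ≤ (1 + ε / 4) m`
      have h2 : a + 1 ≤ (1 + ε / 4) * m := by
        rw [ha]
        nlinarith
      have h3 : (t : ℝ) - b ≤ (r * m + m) * (1 + ε / 4) := by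
        have h4 : ((r : ℝ) + 1) * (a + 1) ≤ (r + 1) * ((1 + ε / 4) * m) := by
          apply mul_le_mul_of_nonneg_left h2 (by positivity)
        nlinarith
      have h5 : (1 - ε / 2) * t - ε / 4 * t ≤ r * m + m := by
        have h6 : (1 - ε / 2 - ε / 4) * (1 + ε / 4) ≤ 1 - ε / 2 := by nlinarith
        have h7 : (1 - ε / 2 - ε / 4) * t * (1 + ε / 4) ≤ (r * m + m) * (1 + ε / 4) := by
          have h8 : (1 - ε / 2 - ε / 4) * t * (1 + ε / 4) ≤ (1 - ε / 2) * t := by nlinarith
          rw [hb] at h3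
          linarith
        have h9 := le_of_mul_le_mul_right h7 (by positivity)
        linarith
      nlinarith
    · obtain ⟨T, g1, g2, g3, g4⟩ := h1
      refine ⟨T, g1, g2, g3, fun i S => (g4 i S).trans ?_⟩
      refine mul_le_mul_of_nonneg_right ?_ (Nat.cast_nonneg _)
      rw [hb, div_le_div_iff₀ (by positivity) htp, ha]
      have : 4 * m / ε * (ε * t / 2) = 2 * m * t := by field_simp; ring
      rw [this]
      have : (1 + ε / 8) * m * t ≤ 2 * (m * t) := by
        have h2 : 0 < (m : ℝ) * t := by positivity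
        nlinarith
      linarith

end Vale.Agent.P061.H358
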