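import Vale.Agent.P061.H358.Packs

/-!
# Selecting an arbitrary dyadic proportion of a tree packing
-/

namespace Vale.Agent.P061.H358

open Finset ST.Br

/-- One halving step with relative error `θ`, for packings of at least `t₁` trees. -/
def Half (θ : ℝ) (t₁ : ℕ) : Prop :=
  ∀ (V E : Type) [Fintype V] [DecidableEq V] [Fintype E] [DecidableEq E] (G : MGraph V E)
    (A : Finset E) (t : ℕ), t₁ ≤ t → HasTrees G A t →
    ∃ (A' : Finset E) (t' : ℕ), A' ⊆ A ∧ HasTrees G A' t' ∧
      (1 - θ) * (t / 2) ≤ (t' : ℝ) ∧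
      ∀ S : Finset V, ((A' ∩ G.cut S).card : ℝ) ≤ (1 + θ) / 2 * (A ∩ G.cut S).card

theorem sel_arith {a a₁ w q θ : ℝ} (ha₁ : 0 ≤ a₁) (h : a₁ ≤ (1 + 2 * θ) / 2 * a) (ha : 0 ≤ a)
    (hw : 0 ≤ w) (hw1 : w ≤ 1) (hq : 1 ≤ q) (hθ : 0 ≤ θ) :
    a₁ + w * q * (a - a₁) ≤ (1 / 2 + w / 2) * (q * (1 + 2 * θ)) * a := by
  have hwq : 0 ≤ w * q := by positivity
  rcases le_or_gt (w * q) 1 with hc | hc
  · have h1 : a₁ * (1 - w * q) ≤ (1 + 2 * θ) / 2 * a * (1 - w * q) :=
      mul_le_mul_of_nonneg_right h (by linarith)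
    have h2 : 0 ≤ ((1 + 2 * θ) * (q - 1) / 2 + w * q * (2 * θ)) * a := by
      have : 0 ≤ q - 1 := by linarith
      positivity
    nlinarith only [h1, h2]
  · have h1 : a₁ * (1 - w * q) ≤ 0 := mul_nonpos_of_nonneg_of_nonpos ha₁ (by linarith)
    have h2 : 0 ≤ ((1 - w) / 2 * q + (1 / 2 + w / 2) * q * (2 * θ)) * a := by
      have : 0 ≤ 1 - w := by linarith
      positivity
    nlinarith only [h1, h2]

/-- From halving to every dyadic proportion. -/
theorem sel {θ : ℝ} {t₁ : ℕ} (hθ : 0 ≤ θ) (hθ' : θ ≤ 1 / 4) (ht₁ : 2 ≤ θ * t₁)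
    (hH : Half θ t₁) (n : ℕ) :
    ∀ (j : ℕ), j ≤ 2 ^ n → ∀ (V E : Type) [Fintype V] [DecidableEq V] [Fintype E] [DecidableEq E]
    (G : MGraph V E) (A : Finset E) (t : ℕ), 4 ^ n * t₁ ≤ t → HasTrees G A t →
    ∃ (A' : Finset E) (s : ℕ), A' ⊆ A ∧ HasTrees G A' s ∧
      (j / 2 ^ n : ℝ) * (1 - 2 * θ) ^ n * t ≤ s ∧
      ∀ S : Finset V, ((A' ∩ G.cut S).card : ℝ) ≤
        (j / 2 ^ n : ℝ) * (1 + 2 * θ) ^ n * (A ∩ G.cut S).card := by
  induction n with
  | zero =>
    intro j hj V E _ _ _ _ G A t ht hA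
    have hj' : j = 0 ∨ j = 1 := by
      simp at hj
      omega
    rcases hj' with h | h
    · subst h
      refine ⟨∅, 0, empty_subset _, hasTrees_zero G _, by simp, fun S => by simp⟩
    · subst h
      refine ⟨A, t, Subset.refl _, hA, by simp, fun S => by simp⟩
  | succ n ih =>
    intro j hj V E _ _ _ _ G A t ht hA
    have hp4 : 1 ≤ 4 ^ n := Nat.one_le_pow _ _ (by norm_num)
    have htt : t₁ ≤ t := by
      refine le_trans ?_ ht
      exact Nat.le_mul_of_pos_left _ (by positivity)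
    obtain ⟨A₁, t', hA₁, ht', hle, hcut⟩ := hH V E G A t htt hA
    have ht0 : (0 : ℝ) ≤ t := Nat.cast_nonneg _
    have htR : (t₁ : ℝ) ≤ t := by exact_mod_cast htt
    have h2t : 2 ≤ θ * t := le_trans ht₁ (mul_le_mul_of_nonneg_left htR hθ)
    have ht4 : (4 : ℝ) ^ (n + 1) * t₁ ≤ t := by exact_mod_cast ht
    have ha0 : 0 ≤ 1 - 2 * θ := by linarith
    have ha1 : 1 - 2 * θ ≤ 1 := by linarith
    have hb1 : 1 ≤ 1 + 2 * θ := by linarith
    have hpa : (1 - 2 * θ) ^ n ≤ 1 := pow_le_one₀ ha0 ha1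
    have hpa0 : 0 ≤ (1 - 2 * θ) ^ n := pow_nonneg ha0 _
    have hpb : 1 ≤ (1 + 2 * θ) ^ n := one_le_pow₀ hb1
    have hpb0 : 0 ≤ (1 + 2 * θ) ^ n := by linarith
    have h2n : (0 : ℝ) < 2 ^ n := by positivity
    rcases le_or_gt j (2 ^ n) with hjn | hjn
    · have ht'4 : 4 ^ n * t₁ ≤ t' := by
        have : (4 : ℝ) ^ n * t₁ ≤ t' := by
          have h5 : (4 : ℝ) ^ n * t₁ * 4 ≤ t := by
            rw [pow_succ] at ht4
            linarith
          nlinarith
        exact_mod_cast this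
      obtain ⟨A', s, h1, h2, h3, h4⟩ := ih j hjn V E G A₁ t' ht'4 ht'
      refine ⟨A', s, h1.trans hA₁, h2, ?_, fun S => ?_⟩
      · have h5 : (1 - 2 * θ) * (t / 2) ≤ t' := by nlinarith
        calc (j / 2 ^ (n + 1) : ℝ) * (1 - 2 * θ) ^ (n + 1) * t
            = (j / 2 ^ n : ℝ) * (1 - 2 * θ) ^ n * ((1 - 2 * θ) * (t / 2)) := by
              rw [pow_succ, pow_succ]
              field_simp
          _ ≤ (j / 2 ^ n : ℝ) * (1 - 2 * θ) ^ n * t' := by gcongr
          _ ≤ s := h3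
      · calc ((A' ∩ G.cut S).card : ℝ)
            ≤ (j / 2 ^ n : ℝ) * (1 + 2 * θ) ^ n * (A₁ ∩ G.cut S).card := h4 S
          _ ≤ (j / 2 ^ n : ℝ) * (1 + 2 * θ) ^ n * ((1 + 2 * θ) / 2 * (A ∩ G.cut S).card) := by
              have h5 := hcut S
              have h6 : (0 : ℝ) ≤ ((A ∩ G.cut S).card : ℝ) := Nat.cast_nonneg _
              have h7 : ((A₁ ∩ G.cut S).card : ℝ) ≤ (1 + 2 * θ) / 2 * (A ∩ G.cut S).card := by
                nlinarith
              gcongr
          _ = (j / 2 ^ (n + 1) : ℝ) * (1 + 2 * θ) ^ (n + 1) * (A ∩ G.cut S).card := by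
              rw [pow_succ, pow_succ]
              field_simp
    · set i := j - 2 ^ n with hi
      have hij : j = 2 ^ n + i := by omega
      have hin : i ≤ 2 ^ n := by
        rw [pow_succ] at hj
        omega
      set r := ⌊(1 - θ) * (t / 2 : ℝ)⌋₊ with hr
      have hrle : (r : ℝ) ≤ (1 - θ) * (t / 2) := Nat.floor_le (by nlinarith)
      have hrge : (1 - 2 * θ) * (t / 2) ≤ r := by
        have := Nat.lt_floor_add_one ((1 - θ) * (t / 2 : ℝ))
        rw [← hr] at this
        nlinarith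
      have hR : HasTrees G (A \ A₁) r := by
        refine hasTrees_sdiff hA hA₁ hcut ?_
        linarith
      have hr4 : 4 ^ n * t₁ ≤ r := by
        have : (4 : ℝ) ^ n * t₁ ≤ r := by
          have h5 : (4 : ℝ) ^ n * t₁ * 4 ≤ t := by
            rw [pow_succ] at ht4
            linarith
          nlinarith
        exact_mod_cast this
      obtain ⟨A₂, s, h1, h2, h3, h4⟩ := ih i hin V E G (A \ A₁) r hr4 hR
      have hdis : Disjoint A₁ A₂ := by
        rw [Finset.disjoint_left]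
        intro e he he'
        exact (mem_sdiff.1 (h1 he')).2 he
      have hi0 : (0 : ℝ) ≤ i / 2 ^ n := by positivity
      have hi1 : (i : ℝ) / 2 ^ n ≤ 1 := by
        rw [div_le_one h2n]
        exact_mod_cast hin
      have hjr : (j / 2 ^ (n + 1) : ℝ) = 1 / 2 + (i / 2 ^ n) / 2 := by
        rw [hij, pow_succ]
        push_cast
        field_simp
      refine ⟨A₁ ∪ A₂, t' + s, union_subset hA₁ (h1.trans sdiff_subset),
        hasTrees_union hdis ht' h2, ?_, fun S => ?_⟩
      · rw [hjr]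
        push_cast
        have h5 : (1 - 2 * θ) * (t / 2) ≤ t' := by nlinarith
        have h6 : (i / 2 ^ n : ℝ) * (1 - 2 * θ) ^ n * ((1 - 2 * θ) * (t / 2)) ≤ s := by
          refine le_trans ?_ h3
          gcongr
        have h7 : (1 - 2 * θ) ^ (n + 1) * (t / 2) ≤ t' := by
          refine le_trans ?_ h5
          rw [pow_succ]
          have h8 : 0 ≤ (1 - 2 * θ) * (t / 2) := by positivity
          nlinarith
        calc (1 / 2 + (i / 2 ^ n) / 2 : ℝ) * (1 - 2 * θ) ^ (n + 1) * t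
            = (1 - 2 * θ) ^ (n + 1) * (t / 2) +
              (i / 2 ^ n : ℝ) * (1 - 2 * θ) ^ n * ((1 - 2 * θ) * (t / 2)) := by
              rw [pow_succ]
              ring
          _ ≤ t' + s := add_le_add h7 h6
      · rw [hjr]
        set a : ℝ := ((A ∩ G.cut S).card : ℝ) with ha
        set a₁ : ℝ := ((A₁ ∩ G.cut S).card : ℝ) with ha₁
        have hbase : (((A₁ ∪ A₂) ∩ G.cut S).card : ℝ) ≤ a₁ + ((A₂ ∩ G.cut S).card : ℝ) := by
          rw [ha₁, union_inter_distrib_right]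
          exact_mod_cast card_union_le _ _
        have hcompl : (((A \ A₁) ∩ G.cut S).card : ℝ) = a - a₁ := by
          have h8 : ((A \ A₁) ∩ G.cut S).card + (A₁ ∩ G.cut S).card = (A ∩ G.cut S).card := by
            rw [← card_union_of_disjoint]
            · congr 1
              ext e
              simp only [mem_union, mem_inter, mem_sdiff]
              constructor
              · rintro (⟨⟨h, -⟩, h'⟩ | ⟨h, h'⟩)
                · exact ⟨h, h'⟩
                · exact ⟨hA₁ h, h'⟩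
              · rintro ⟨h, h'⟩
                by_cases h9 : e ∈ A₁
                · exact Or.inr ⟨h9, h'⟩
                · exact Or.inl ⟨⟨h, h9⟩, h'⟩
            · rw [Finset.disjoint_left]
              intro e he he'
              simp only [mem_inter, mem_sdiff] at he he'
              exact he.1.2 he'.1
          have h9 : (((A \ A₁) ∩ G.cut S).card : ℝ) + ((A₁ ∩ G.cut S).card : ℝ) =
              ((A ∩ G.cut S).card : ℝ) := by exact_mod_cast h8
          rw [ha, ha₁]
          linarith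
        have h5 := h4 S
        rw [hcompl] at h5
        have h6 : a₁ ≤ (1 + θ) / 2 * a := hcut S
        have ha₁0 : 0 ≤ a₁ := Nat.cast_nonneg _
        have ha0' : 0 ≤ a := Nat.cast_nonneg _
        have h7 : a₁ ≤ (1 + 2 * θ) / 2 * a := by nlinarith
        refine hbase.trans ?_
        refine (add_le_add_right h5 a₁).trans ?_
        set w : ℝ := (i / 2 ^ n : ℝ) with hw
        set q : ℝ := (1 + 2 * θ) ^ n with hq
        have hgoal : (1 / 2 + w / 2) * (1 + 2 * θ) ^ (n + 1) * a =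
            (1 / 2 + w / 2) * (q * (1 + 2 * θ)) * a := by rw [pow_succ]
        rw [hgoal]
        exact sel_arith ha₁0 h7 ha0' hi0 hi1 hpb hθ

end Vale.Agent.P061.H358
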