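import Vale.Agent.P061.H358.Down

/-!
# Asymptotically sharp thin sub-packings
-/

namespace Vale.Agent.P061.H358

open Finset ST.Br

theorem exp_two_le {x : ℝ} (hx : 0 ≤ x) (hx' : x ≤ 1 / 4) : Real.exp (2 * x) ≤ 1 + 4 * x := by
  have h1 := Real.add_one_le_exp (-(2 * x))
  have h2 : 0 < Real.exp (2 * x) := Real.exp_pos _
  have h3 : Real.exp (2 * x) * Real.exp (-(2 * x)) = 1 := by
    rw [← Real.exp_add, add_neg_cancel, Real.exp_zero]
  have h4 : Real.exp (2 * x) * (1 - 2 * x) ≤ 1 := by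
    have : Real.exp (2 * x) * (-(2 * x) + 1) ≤ Real.exp (2 * x) * Real.exp (-(2 * x)) :=
      mul_le_mul_of_nonneg_left h1 h2.le
    linarith
  have h5 : 1 ≤ (1 + 4 * x) * (1 - 2 * x) := by nlinarith
  have h6 : 0 < 1 - 2 * x := by linarith
  by_contra hcon
  push Not at hcon
  have : (1 + 4 * x) * (1 - 2 * x) < Real.exp (2 * x) * (1 - 2 * x) :=
    mul_lt_mul_of_pos_right hcon h6
  linarith

theorem fin_arith {x : ℝ} (hx : 0 ≤ x) (hx' : x ≤ 1 / 4) :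
    (1 / (1 - x) + x) * (Real.exp x * Real.exp x) ≤ 1 + 10 * x := by
  have h1 : Real.exp x * Real.exp x = Real.exp (2 * x) := by
    rw [← Real.exp_add]; ring_nf
  have h2 : 1 / (1 - x) ≤ 1 + 2 * x := by
    rw [div_le_iff₀ (by linarith)]
    nlinarith
  have h3 := exp_two_le hx hx'
  rw [h1]
  have h4 : 0 < 1 / (1 - x) := by
    apply div_pos one_pos
    linarith
  calc (1 / (1 - x) + x) * Real.exp (2 * x) ≤ (1 + 3 * x) * (1 + 4 * x) := by
        apply mul_le_mul _ h3 (Real.exp_pos _).le (by linarith)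
        linarith
    _ ≤ 1 + 10 * x := by nlinarith

/-- Parameters: the number of dyadic digits used for `m` trees. -/
theorem params {c : ℝ} (hc : 0 < c) (hc1 : c ≤ 1) {m : ℕ} (hm : 1 ≤ m) :
    ∃ n : ℕ, 16 ^ n ≤ m ∧ ((4 : ℝ) ^ n) ^ (-c) ≤ 2 * (m : ℝ) ^ (-(c / 4)) ∧
      n * ((4 : ℝ) ^ n) ^ (-c) ≤ 4 / c * (m : ℝ) ^ (-(c / 4)) ∧
      ((2 : ℝ) ^ n)⁻¹ ≤ 2 * (m : ℝ) ^ (-(c / 4)) := by
  have hm0 : m ≠ 0 := by omega
  have hmR : (1 : ℝ) ≤ m := by exact_mod_cast hm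
  have hmp : (0 : ℝ) < m := by linarith
  set n := Nat.log 2 m / 4 with hn
  have h1 : 4 * n ≤ Nat.log 2 m := by omega
  have h2 : Nat.log 2 m + 1 ≤ 4 * n + 4 := by omega
  have h3 : 2 ^ (4 * n) ≤ m :=
    (Nat.pow_le_pow_right (by norm_num) h1).trans (Nat.pow_log_le_self 2 hm0)
  have h4 : m < 2 ^ (4 * n + 4) :=
    (Nat.lt_pow_succ_log_self (by norm_num) m).trans_le (Nat.pow_le_pow_right (by norm_num) h2)
  have h16 : 16 ^ n ≤ m := by
    rw [pow_mul] at h3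
    exact h3
  have h4R : (m : ℝ) < (2 : ℝ) ^ (4 * n + 4) := by exact_mod_cast h4
  have h44 : (0 : ℝ) < (4 : ℝ) ^ n := by positivity
  -- `(4 ^ n) ^ (- c / 2) ≤ 2 m ^ (- c / 4)`
  have h5 : ((4 : ℝ) ^ n) ^ (-(c / 2)) ≤ 2 * (m : ℝ) ^ (-(c / 4)) := by
    have e1 : ((4 : ℝ) ^ n) ^ (-(c / 2)) = (((4 : ℝ) ^ n) ^ 2) ^ (-(c / 4)) := by
      rw [← Real.rpow_natCast (((4 : ℝ) ^ n)) 2, ← Real.rpow_mul h44.le]
      congr 1
      push_cast
      ring
    have e2 : (m : ℝ) / 16 ≤ ((4 : ℝ) ^ n) ^ 2 := by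
      have : ((4 : ℝ) ^ n) ^ 2 * 16 = (2 : ℝ) ^ (4 * n + 4) := by
        rw [← pow_mul, pow_add, show (4 : ℝ) = 2 ^ 2 by norm_num, ← pow_mul]
        ring_nf
      linarith
    have e3 : (((4 : ℝ) ^ n) ^ 2) ^ (-(c / 4)) ≤ ((m : ℝ) / 16) ^ (-(c / 4)) :=
      Real.rpow_le_rpow_of_nonpos (by positivity) e2 (by linarith)
    have e4 : ((m : ℝ) / 16) ^ (-(c / 4)) = (16 : ℝ) ^ (c / 4) * (m : ℝ) ^ (-(c / 4)) := by
      rw [Real.div_rpow hmp.le (by norm_num), Real.rpow_neg (by norm_num : (0 : ℝ) ≤ 16),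
        div_inv_eq_mul, mul_comm]
    have e5 : (16 : ℝ) ^ (c / 4) ≤ 2 := by
      calc (16 : ℝ) ^ (c / 4) ≤ (16 : ℝ) ^ ((1 : ℝ) / 4) :=
            Real.rpow_le_rpow_of_exponent_le (by norm_num) (by linarith)
        _ = 2 := by
            rw [show (16 : ℝ) = 2 ^ (4 : ℝ) by norm_num, ← Real.rpow_mul (by norm_num)]
            norm_num
    rw [e1]
    refine e3.trans ?_
    rw [e4]
    gcongr
  have h6 : ((4 : ℝ) ^ n) ^ (-c) ≤ ((4 : ℝ) ^ n) ^ (-(c / 2)) :=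
    Real.rpow_le_rpow_of_exponent_le (one_le_pow₀ (by norm_num)) (by linarith)
  refine ⟨n, h16, h6.trans h5, ?_, ?_⟩
  · -- `n ≤ (2 / c) (4 ^ n) ^ (c / 2)`
    have e1 : (n : ℝ) * (c / 2) ≤ ((4 : ℝ) ^ n) ^ (c / 2) := by
      rw [← Real.rpow_natCast, ← Real.rpow_mul (by norm_num), Real.rpow_def_of_pos (by norm_num)]
      refine le_trans ?_ (Real.add_one_le_exp _)
      have hl : 1 ≤ Real.log 4 := by
        rw [show (4 : ℝ) = 2 ^ 2 by norm_num, Real.log_pow]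
        have := Real.one_sub_inv_le_log_of_pos (x := 2) (by norm_num)
        push_cast
        norm_num at this ⊢
        linarith
      have : 0 ≤ (n : ℝ) * (c / 2) := by positivity
      nlinarith
    have e2 : ((4 : ℝ) ^ n) ^ (-c) = ((4 : ℝ) ^ n) ^ (-(c / 2)) * ((4 : ℝ) ^ n) ^ (-(c / 2)) := by
      rw [← Real.rpow_add h44]
      congr 1
      ring
    have e3 : ((4 : ℝ) ^ n) ^ (c / 2) * ((4 : ℝ) ^ n) ^ (-(c / 2)) = 1 := by
      rw [← Real.rpow_add h44, add_neg_cancel, Real.rpow_zero]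
    have e4 : (0 : ℝ) < ((4 : ℝ) ^ n) ^ (-(c / 2)) := by positivity
    have e5 : (n : ℝ) * ((4 : ℝ) ^ n) ^ (-(c / 2)) ≤ 2 / c := by
      have : (n : ℝ) * (c / 2) * ((4 : ℝ) ^ n) ^ (-(c / 2)) ≤ 1 := by
        rw [← e3]
        exact mul_le_mul_of_nonneg_right e1 e4.le
      rw [le_div_iff₀ hc]
      linarith
    calc (n : ℝ) * ((4 : ℝ) ^ n) ^ (-c)
        = (n : ℝ) * ((4 : ℝ) ^ n) ^ (-(c / 2)) * ((4 : ℝ) ^ n) ^ (-(c / 2)) := by
          rw [e2]; ring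
      _ ≤ 2 / c * (2 * (m : ℝ) ^ (-(c / 4))) := by
          apply mul_le_mul e5 h5 e4.le (by positivity)
      _ = 4 / c * (m : ℝ) ^ (-(c / 4)) := by ring
  · -- `2 ^ (-n) ≤ 2 m ^ (-1/4)`
    have e0 : (0 : ℝ) < (2 : ℝ) ^ n := by positivity
    have e1 : ((2 : ℝ) ^ n)⁻¹ = (((2 : ℝ) ^ n) ^ 4) ^ (-(1 / 4 : ℝ)) := by
      rw [← Real.rpow_natCast (((2 : ℝ) ^ n)) 4, ← Real.rpow_mul e0.le, ← Real.rpow_neg_one]
      congr 1
      push_cast
      norm_num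
    have e2 : (m : ℝ) / 16 ≤ ((2 : ℝ) ^ n) ^ 4 := by
      have : ((2 : ℝ) ^ n) ^ 4 * 16 = (2 : ℝ) ^ (4 * n + 4) := by
        rw [← pow_mul, pow_add]
        ring_nf
      linarith
    have e3 : (((2 : ℝ) ^ n) ^ 4) ^ (-(1 / 4 : ℝ)) ≤ ((m : ℝ) / 16) ^ (-(1 / 4 : ℝ)) :=
      Real.rpow_le_rpow_of_nonpos (by positivity) e2 (by norm_num)
    have e4 : ((m : ℝ) / 16) ^ (-(1 / 4 : ℝ)) = 2 * (m : ℝ) ^ (-(1 / 4 : ℝ)) := by
      rw [Real.div_rpow hmp.le (by norm_num), Real.rpow_neg (by norm_num : (0 : ℝ) ≤ 16),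
        div_inv_eq_mul, mul_comm]
      congr 1
      rw [show (16 : ℝ) = 2 ^ (4 : ℝ) by norm_num, ← Real.rpow_mul (by norm_num)]
      norm_num
    have e5 : (m : ℝ) ^ (-(1 / 4 : ℝ)) ≤ (m : ℝ) ^ (-(c / 4)) :=
      Real.rpow_le_rpow_of_exponent_le hmR (by linarith)
    rw [e1]
    refine e3.trans ?_
    rw [e4]
    gcongr

/-- The combination of the two selections (pure algebra). -/
theorem core {x q b X t' t m a J P : ℝ} (hx : 0 ≤ x) (hx1 : x ≤ 1 / 4)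
    (hm : 0 ≤ m) (ht : 0 < t) (ht' : 0 < t') (h4 : t' ≤ 4 * m) (hq : q = m / (t' * (1 - x)))
    (hb : b ≤ 2 * X) (h8 : 8 * X ≤ x) (hJ0 : 0 ≤ J) (hJ : J ≤ q + b) (hX0 : 0 ≤ X)
    (hP0 : 0 ≤ P) (hP : P ≤ Real.exp x) (ha : 0 ≤ a) {e u : ℝ} (he0 : 0 ≤ e)
    (he : e ≤ Real.exp x) (hu : u ≤ e * (t' / t) * a) :
    J * P * u ≤ (1 + 10 * x) * (m / t) * a := by
  have hx2 : 0 < 1 - x := by linarith
  have hfin := fin_arith hx hx1
  have h6 : J * t' ≤ m * (1 / (1 - x) + x) := by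
    calc J * t' ≤ (q + b) * t' := by gcongr
      _ = m * (1 / (1 - x)) + b * t' := by
          rw [add_mul, hq]
          congr 1
          field_simp
      _ ≤ m * (1 / (1 - x)) + (2 * X) * (4 * m) := by
          gcongr
      _ ≤ m * (1 / (1 - x) + x) := by
          nlinarith only [h8, hm]
  calc J * P * u ≤ J * P * (e * (t' / t) * a) := by gcongr
    _ ≤ J * Real.exp x * (Real.exp x * (t' / t) * a) := by gcongr
    _ = (J * t') * (Real.exp x * Real.exp x) * (1 / t) * a := by ring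
    _ ≤ (m * (1 / (1 - x) + x)) * (Real.exp x * Real.exp x) * (1 / t) * a := by gcongr
    _ = (1 / (1 - x) + x) * (Real.exp x * Real.exp x) * (m / t) * a := by ring
    _ ≤ (1 + 10 * x) * (m / t) * a := by gcongr

theorem core_nat {x : ℝ} {n : ℕ} {θ : ℝ} (hθ : 0 ≤ θ) (hθ' : θ ≤ 1 / 4)
    (h : 2 * (n * θ) ≤ x) : 1 - x ≤ (1 - 2 * θ) ^ n ∧ (1 + 2 * θ) ^ n ≤ Real.exp x := by
  constructor
  · have h6 := one_add_mul_le_pow (a := -(2 * θ)) (by linarith) n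
    have h7 : 1 + -(2 * θ) = 1 - 2 * θ := by ring
    rw [h7] at h6
    linarith
  · have h6 : 1 + 2 * θ ≤ Real.exp (2 * θ) := by
      rw [add_comm]
      exact Real.add_one_le_exp _
    calc (1 + 2 * θ) ^ n ≤ Real.exp (2 * θ) ^ n := by gcongr
      _ = Real.exp (2 * (n * θ)) := by
          rw [← Real.exp_nat_mul]
          ring_nf
      _ ≤ Real.exp x := Real.exp_le_exp.2 h

/-- The case of many trees. -/
theorem large {c C₁ : ℝ} (hc : 0 < c) (hc1 : c ≤ 1) (hC : 0 ≤ C₁) (hH : Halving c C₁ 1)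
    {B : ℝ} (hB : 0 ≤ B) {t₀ : ℕ}
    (hdown : ∀ m : ℕ, 1 ≤ m → t₀ ≤ m → ∀ t : ℕ, m ≤ t →
      ∀ (V E : Type) [Fintype V] [DecidableEq V] [Fintype E] [DecidableEq E]
      (G : MGraph V E) (A : Finset E), HasTrees G A t →
      ∃ (A' : Finset E) (t' : ℕ), A' ⊆ A ∧ HasTrees G A' t' ∧ m ≤ t' ∧ t' ≤ 4 * m ∧
        ∀ S : Finset V, ((A' ∩ G.cut S).card : ℝ) ≤
          Real.exp (B * (m : ℝ) ^ (-c)) * (t' / t) * (A ∩ G.cut S).card)
    {K : ℝ} (hK : K = 8 * (C₁ + 2) / c + B + 8) {m : ℕ} (hm : 1 ≤ m) (hm0 : t₀ ≤ m)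
    (hKm : K * (m : ℝ) ^ (-(c / 4)) ≤ 1 / 4) {t : ℕ} (hmt : m ≤ t)
    (V E : Type) [Fintype V] [DecidableEq V] [Fintype E] [DecidableEq E]
    (G : MGraph V E) (A : Finset E) (hA : HasTrees G A t) :
    ∃ A' : Finset E, A' ⊆ A ∧ HasTrees G A' m ∧
      ∀ S : Finset V, ((A' ∩ G.cut S).card : ℝ) ≤
        (1 + 10 * (K * (m : ℝ) ^ (-(c / 4)))) * (m / t) * (A ∩ G.cut S).card := by
  obtain ⟨n, h16, hp1, hp2, hp3⟩ := params hc hc1 hm
  have hmR : (1 : ℝ) ≤ m := by exact_mod_cast hm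
  have hmp : (0 : ℝ) < m := by linarith
  have htR : (m : ℝ) ≤ t := by exact_mod_cast hmt
  have htp : (0 : ℝ) < t := by linarith
  set X : ℝ := (m : ℝ) ^ (-(c / 4)) with hX
  have hX0 : 0 < X := by positivity
  set x : ℝ := K * X with hx
  have hK8 : 8 * (C₁ + 2) ≤ 8 * (C₁ + 2) / c := by
    rw [le_div_iff₀ hc]
    nlinarith
  have hKpos : 0 < K := by
    rw [hK]
    have : 0 < 8 * (C₁ + 2) / c := by positivity
    linarith
  have hx0 : 0 < x := mul_pos hKpos hX0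
  set θ : ℝ := (C₁ + 2) * (((4 ^ n : ℕ) : ℝ)) ^ (-c) with hθ
  have hcast : (((4 ^ n : ℕ) : ℝ)) = (4 : ℝ) ^ n := by push_cast; rfl
  have hθ0 : 0 ≤ θ := by positivity
  have hθ4 : θ ≤ 1 / 4 := by
    have h1 : θ ≤ (C₁ + 2) * (2 * X) := by
      rw [hθ, hcast]
      gcongr
    have h2 : (C₁ + 2) * (2 * X) ≤ K * X := by
      have : (C₁ + 2) * 2 ≤ K := by rw [hK]; linarith
      nlinarith
    linarith
  have hnθ : 2 * (n * θ) ≤ x := by
    have h1 : n * θ ≤ (C₁ + 2) * (4 / c * X) := by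
      have : n * θ = (C₁ + 2) * (n * ((4 : ℝ) ^ n) ^ (-c)) := by rw [hθ, hcast]; ring
      rw [this]
      gcongr
    have h2 : 2 * ((C₁ + 2) * (4 / c * X)) = 8 * (C₁ + 2) / c * X := by ring
    have h3 : 8 * (C₁ + 2) / c * X ≤ K * X := by
      apply mul_le_mul_of_nonneg_right _ hX0.le
      rw [hK]
      linarith
    rw [hx]
    linarith
  obtain ⟨hHalf, h2θ⟩ := half_of_halving hc hc1 hC hH (t₁ := 4 ^ n)
    (Nat.one_le_pow _ _ (by norm_num)) (le_refl θ)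
  obtain ⟨A', t', h1, h2, h3, h4, h5⟩ := hdown m hm hm0 t hmt V E G A hA
  have h3R : (m : ℝ) ≤ t' := by exact_mod_cast h3
  have h4R : (t' : ℝ) ≤ 4 * m := by exact_mod_cast h4
  have ht'p : (0 : ℝ) < t' := by linarith
  have hBx : Real.exp (B * (m : ℝ) ^ (-c)) ≤ Real.exp x := by
    apply Real.exp_le_exp.2
    have e1 : (m : ℝ) ^ (-c) ≤ X := Real.rpow_le_rpow_of_exponent_le hmR (by linarith)
    have e2 : B * (m : ℝ) ^ (-c) ≤ B * X := mul_le_mul_of_nonneg_left e1 hB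
    have e3 : B * X ≤ K * X := by
      apply mul_le_mul_of_nonneg_right _ hX0.le
      rw [hK]
      linarith
    linarith
  have hx1 : 0 < 1 - x := by linarith
  have hfin := fin_arith hx0.le hKm
  have hexp0 : 0 < Real.exp x := Real.exp_pos x
  have hexp1 : 1 ≤ Real.exp x := Real.one_le_exp hx0.le
  rcases lt_or_ge 1 ((m : ℝ) / (t' * (1 - x))) with hq | hq
  · -- nearly all trees are needed
    refine ⟨A', h1, hasTrees_le h3 h2, fun S => (h5 S).trans ?_⟩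
    refine mul_le_mul_of_nonneg_right ?_ (Nat.cast_nonneg _)
    rw [lt_div_iff₀ (by positivity), one_mul] at hq
    have h6 : (t' : ℝ) ≤ m * (1 / (1 - x)) := by
      rw [mul_one_div, le_div_iff₀ hx1]
      exact hq.le
    calc Real.exp (B * (m : ℝ) ^ (-c)) * (t' / t) ≤ Real.exp x * (m * (1 / (1 - x)) / t) := by
          gcongr
      _ ≤ (1 / (1 - x) + x) * (Real.exp x * Real.exp x) * (m / t) := by
          have h7 : Real.exp x * (m * (1 / (1 - x)) / t) =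
              (1 / (1 - x)) * (Real.exp x * 1) * (m / t) := by ring
          rw [h7]
          gcongr
          linarith
      _ ≤ (1 + 10 * x) * (m / t) := by gcongr
  · set q : ℝ := (m : ℝ) / (t' * (1 - x)) with hqdef
    have hq0 : 0 < q := by positivity
    have h2n : (0 : ℝ) < 2 ^ n := by positivity
    set j := ⌈2 ^ n * q⌉₊ with hj
    have hjle : j ≤ 2 ^ n := by
      rw [hj, Nat.ceil_le]
      push_cast
      nlinarith
    have hj1 : 2 ^ n * q ≤ j := Nat.le_ceil _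
    have hj2 : (j : ℝ) < 2 ^ n * q + 1 := Nat.ceil_lt_add_one (by positivity)
    obtain ⟨A₂, s, g1, g2, g3, g4⟩ := sel hθ0 hθ4 h2θ hHalf n j hjle V E G A' t' (by
      calc 4 ^ n * 4 ^ n = 16 ^ n := by rw [← mul_pow]; norm_num
        _ ≤ m := h16
        _ ≤ t' := h3) h2
    have hjq : q ≤ j / 2 ^ n := by
      rw [le_div_iff₀ h2n]
      linarith
    have hjq' : (j : ℝ) / 2 ^ n ≤ q + (2 ^ n)⁻¹ := by
      rw [div_le_iff₀ h2n, add_mul, inv_mul_cancel₀ h2n.ne']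
      linarith
    obtain ⟨hbern, hpow⟩ := core_nat hθ0 hθ4 hnθ
    have hms : m ≤ s := by
      have : (m : ℝ) ≤ s := by
        have h6 : (m : ℝ) = q * (1 - x) * t' := by
          rw [hqdef]
          field_simp
        rw [h6]
        refine le_trans ?_ g3
        gcongr
      exact_mod_cast this
    refine ⟨A₂, g1.trans h1, hasTrees_le hms g2, fun S => (g4 S).trans ?_⟩
    have h7 : 8 * X ≤ x := by
      rw [hx]
      apply mul_le_mul_of_nonneg_right _ hX0.le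
      rw [hK]
      have : 0 ≤ 8 * (C₁ + 2) / c := by positivity
      linarith
    exact core hx0.le hKm hmp.le htp ht'p h4R hqdef hp3 h7 (by positivity) hjq' hX0.le
      (by positivity) hpow (Nat.cast_nonneg _) (Real.exp_pos _).le hBx (h5 S)

/-- **Asymptotically sharp thin sub-packings.** -/
theorem sharp {c C₁ : ℝ} (hc : 0 < c) (hc1 : c ≤ 1) (hC : 0 ≤ C₁) (hH : Halving c C₁ 1) :
    ∃ C c' : ℝ, 0 < C ∧ 0 < c' ∧ c' ≤ 1 ∧
      ∀ (V E : Type) [Fintype V] [DecidableEq V] [Fintype E] [DecidableEq E]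
      (G : MGraph V E) (A : Finset E) (t m : ℕ), 1 ≤ m → m ≤ t → HasTrees G A t →
      ∃ A' : Finset E, A' ⊆ A ∧ HasTrees G A' m ∧
        ∀ S : Finset V, ((A' ∩ G.cut S).card : ℝ) ≤
          (1 + C * (m : ℝ) ^ (-c')) * (m / t) * (A ∩ G.cut S).card := by
  obtain ⟨t₀, ht₀, hR⟩ := ratio4_of_halving hc hc1 hC hH
  obtain ⟨B, hB, hdown⟩ := down hc (by linarith) hR
  set K : ℝ := 8 * (C₁ + 2) / c + B + 8 with hK
  have hKpos : 0 < K := by
    have : 0 < 8 * (C₁ + 2) / c := by positivity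
    rw [hK]; linarith
  obtain ⟨m₁, hm₁⟩ := exists_nat_ge ((4 * K) ^ (4 / c))
  set m₂ : ℕ := max m₁ t₀ with hm₂
  have hm₂1 : 1 ≤ m₂ := le_trans (by omega) (le_max_right _ _)
  have hm₂R : (1 : ℝ) ≤ m₂ := by exact_mod_cast hm₂1
  have hKm : ∀ m : ℕ, m₂ ≤ m → K * (m : ℝ) ^ (-(c / 4)) ≤ 1 / 4 := by
    intro m hm
    have h1 : (4 * K) ^ (4 / c) ≤ (m : ℝ) :=
      hm₁.trans (by exact_mod_cast (le_max_left _ _).trans hm)
    have hmp : (0 : ℝ) < m := lt_of_lt_of_le (by positivity) h1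
    have h2 : ((4 * K) ^ (4 / c)) ^ (c / 4) ≤ (m : ℝ) ^ (c / 4) :=
      Real.rpow_le_rpow (by positivity) h1 (by positivity)
    rw [← Real.rpow_mul (by positivity), show 4 / c * (c / 4) = 1 by field_simp,
      Real.rpow_one] at h2
    rw [Real.rpow_neg hmp.le]
    have h3 : (0 : ℝ) < (m : ℝ) ^ (c / 4) := by positivity
    rw [mul_inv_le_iff₀ h3]
    linarith
  set D : ℝ := 4 * m₂ * Real.exp B with hD
  have hexpB : 1 ≤ Real.exp B := Real.one_le_exp hB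
  have hD1 : (m₂ : ℝ) ≤ D := by
    rw [hD]
    nlinarith
  have hDpos : 0 < D := by linarith
  refine ⟨10 * K + D * (m₂ : ℝ) ^ (c / 4), c / 4, by positivity, by positivity, by linarith, ?_⟩
  intro V E _ _ _ _ G A t m hm hmt hA
  have hmR : (1 : ℝ) ≤ m := by exact_mod_cast hm
  have hmp : (0 : ℝ) < m := by linarith
  have htR : (m : ℝ) ≤ t := by exact_mod_cast hmt
  have htp : (0 : ℝ) < t := by linarith
  rcases le_or_gt m₂ m with hmm | hmm
  · obtain ⟨A', h1, h2, h3⟩ := large hc hc1 hC hH hB hdown hK hm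
      ((le_max_right _ _).trans hmm) (hKm m hmm) hmt V E G A hA
    refine ⟨A', h1, h2, fun S => (h3 S).trans ?_⟩
    have h4 : 0 ≤ D * (m₂ : ℝ) ^ (c / 4) * (m : ℝ) ^ (-(c / 4)) := by positivity
    have h5 : 1 + 10 * (K * (m : ℝ) ^ (-(c / 4))) ≤
        1 + (10 * K + D * (m₂ : ℝ) ^ (c / 4)) * (m : ℝ) ^ (-(c / 4)) := by linarith
    exact mul_le_mul_of_nonneg_right (mul_le_mul_of_nonneg_right h5 (by positivity))
      (Nat.cast_nonneg _)
  · -- few trees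
    have hmmR : (m : ℝ) < m₂ := by exact_mod_cast hmm
    have hkey : D ≤ (1 + (10 * K + D * (m₂ : ℝ) ^ (c / 4)) * (m : ℝ) ^ (-(c / 4))) := by
      have h1 : (m₂ : ℝ) ^ (-(c / 4)) ≤ (m : ℝ) ^ (-(c / 4)) :=
        Real.rpow_le_rpow_of_nonpos hmp hmmR.le (by linarith)
      have h2 : (m₂ : ℝ) ^ (c / 4) * (m₂ : ℝ) ^ (-(c / 4)) = 1 := by
        rw [← Real.rpow_add (by linarith), add_neg_cancel, Real.rpow_zero]
      have h3 : (0 : ℝ) < (m : ℝ) ^ (-(c / 4)) := by positivity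
      have h4 : (0 : ℝ) < (m₂ : ℝ) ^ (c / 4) := by positivity
      have h5 : D * 1 ≤ D * ((m₂ : ℝ) ^ (c / 4) * (m : ℝ) ^ (-(c / 4))) := by
        rw [← h2]
        gcongr
      nlinarith [mul_pos hKpos h3]
    rcases le_or_gt m₂ t with hmt' | hmt'
    · obtain ⟨A', t', h1, h2, h3, h4, h5⟩ := hdown m₂ hm₂1 (le_max_right _ _) t hmt' V E G A hA
      refine ⟨A', h1, hasTrees_le (hmm.le.trans h3) h2, fun S => (h5 S).trans ?_⟩
      refine mul_le_mul_of_nonneg_right ?_ (Nat.cast_nonneg _)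
      have h4R : (t' : ℝ) ≤ 4 * m₂ := by exact_mod_cast h4
      have h6 : Real.exp (B * (m₂ : ℝ) ^ (-c)) ≤ Real.exp B := by
        apply Real.exp_le_exp.2
        have : (m₂ : ℝ) ^ (-c) ≤ 1 := Real.rpow_le_one_of_one_le_of_nonpos hm₂R (by linarith)
        nlinarith
      calc Real.exp (B * (m₂ : ℝ) ^ (-c)) * (t' / t) ≤ Real.exp B * (4 * m₂ / t) := by gcongr
        _ = D * (1 / t) := by rw [hD]; ring
        _ ≤ D * (m / t) := by gcongr
        _ ≤ _ := by gcongr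
    · have hmtR : (t : ℝ) < m₂ := by exact_mod_cast hmt'
      refine ⟨A, Subset.refl _, hasTrees_le hmt hA, fun S => ?_⟩
      have h1 : (1 : ℝ) ≤ D * (m / t) := by
        have h2 : (1 : ℝ) ≤ m₂ * (1 / t) := by
          rw [mul_one_div, le_div_iff₀ htp]
          linarith
        calc (1 : ℝ) ≤ m₂ * (1 / t) := h2
          _ ≤ D * (m / t) := by gcongr
      have h2 : (0 : ℝ) ≤ ((A ∩ G.cut S).card : ℝ) := Nat.cast_nonneg _
      have h3 : D * (m / t) ≤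
          (1 + (10 * K + D * (m₂ : ℝ) ^ (c / 4)) * (m : ℝ) ^ (-(c / 4))) * (m / t) := by gcongr
      calc ((A ∩ G.cut S).card : ℝ) = 1 * ((A ∩ G.cut S).card : ℝ) := (one_mul _).symm
        _ ≤ _ := mul_le_mul_of_nonneg_right (h1.trans h3) h2

end Vale.Agent.P061.H358
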